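import Vale.Agent.P271.Filt.OfBasis

/-!
# P271 / Filt : lexicographic refinements (helper232)

`lex F h α` has weight `α * F.w x + h x`; here `h` is a function which on every graded piece of
`F` is a filtration.
-/

namespace Vale.Agent.P271.Filt

open Module

namespace Wt

variable {K : Type*} {V : Type*} [Field K] [AddCommGroup V] [Module K V]

/-- `h` is a filtration on the graded pieces of `F`, and `α` is large. -/
structure LexData (F : Wt K V) (h : V → ℝ) (α : ℝ) : Prop where
  smul : ∀ (c : K) (x : V), c ≠ 0 → x ≠ 0 → h x ≤ h (c • x)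
  add : ∀ x y : V, x ≠ 0 → y ≠ 0 → x + y ≠ 0 → F.w x = F.w y → F.w (x + y) = F.w x →
    min (h x) (h y) ≤ h (x + y)
  add_lt : ∀ x y : V, x ≠ 0 → y ≠ 0 → F.w x < F.w y → h x ≤ h (x + y)
  mono : ∀ x y : V, x ≠ 0 → y ≠ 0 → F.w x < F.w y → α * F.w x + h x ≤ α * F.w y + h y

/-- The lexicographic refinement. -/
def lex (F : Wt K V) (h : V → ℝ) (α : ℝ) (H : LexData F h α) : Wt K V where
  w x := α * F.w x + h x
  smul_le' := by
    intro c x hc hx
    rw [F.w_smul c hc x hx]
    have := H.smul c x hc hx
    linarith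
  add' := by
    intro x y hx hy hxy
    rcases lt_trichotomy (F.w x) (F.w y) with hlt | heq | hlt
    · have h1 := (F.w_add_of_lt hx hy hlt).2
      have h2 := H.add_lt x y hx hy hlt
      rw [h1]
      exact (min_le_left _ _).trans (by linarith)
    · rcases (F.add' x y hx hy hxy).lt_or_eq with h1 | h1
      · rw [← heq, min_self] at h1
        have h2 := H.mono x (x + y) hx hxy h1
        exact (min_le_left _ _).trans h2
      · rw [← heq, min_self] at h1
        have h2 := H.add x y hx hy hxy heq h1.symm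
        rw [← heq, ← h1]
        rcases min_le_iff.1 h2 with h3 | h3
        · exact (min_le_left _ _).trans (by linarith)
        · exact (min_le_right _ _).trans (by linarith)
    · have h1 := (F.w_add_of_lt hy hx hlt).2
      have h2 := H.add_lt y x hy hx hlt
      rw [add_comm y x] at h1 h2
      rw [h1]
      exact (min_le_right _ _).trans (by linarith)

theorem lex_w (F : Wt K V) (h : V → ℝ) (α : ℝ) (H : LexData F h α) (x : V) :
    (F.lex h α H).w x = α * F.w x + h x := rfl

/-- strict form of the last condition -/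
def LexStrict (F : Wt K V) (h : V → ℝ) (α : ℝ) : Prop :=
  ∀ x y : V, x ≠ 0 → y ≠ 0 → F.w x < F.w y → α * F.w x + h x < α * F.w y + h y

/-- A basis adapted to the refinement is adapted to `F`. -/
theorem Adapted.of_lex {F : Wt K V} {h : V → ℝ} {α : ℝ} {H : LexData F h α}
    (hs : LexStrict F h α) {ι : Type*} {b : Basis ι K V} (hb : (F.lex h α H).Adapted b) :
    F.Adapted b := by
  intro x i hi
  have hx : x ≠ 0 := by rintro rfl; simp at hi
  by_contra hlt
  push Not at hlt
  have h1 := hs (b i) x (b.ne_zero i) hx hlt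
  have h2 := hb x i hi
  rw [lex_w, lex_w] at h2
  linarith

/-- The total weight of the refinement, through a basis adapted to it. -/
theorem lex_T [FiniteDimensional K V] {F : Wt K V} {h : V → ℝ} {α : ℝ} {H : LexData F h α}
    (hs : LexStrict F h α) {ι : Type*} [Fintype ι] {b : Basis ι K V}
    (hb : (F.lex h α H).Adapted b) : (F.lex h α H).T = α * F.T + ∑ i, h (b i) := by
  rw [← hb.sum_eq, ← (hb.of_lex hs).sum_eq, Finset.mul_sum, ← Finset.sum_add_distrib]
  rfl

/-- Every step of `F` is a step of the refinement. -/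
theorem lex_step [FiniteDimensional K V] {F : Wt K V} {h : V → ℝ} {α : ℝ} {H : LexData F h α}
    (hs : LexStrict F h α) (a : ℝ) : ∃ a', (F.lex h α H).sub a' = F.sub a := by
  classical
  by_cases hex : ∃ x : V, x ≠ 0 ∧ x ∈ F.sub a
  · obtain ⟨x0, hx0, hx0a⟩ := hex
    obtain ⟨x, hxa, hx, hmin⟩ := (F.lex h α H).exists_min (F.sub a : Set V) ⟨x0, hx0a, hx0⟩
    refine ⟨(F.lex h α H).w x, ?_⟩
    apply le_antisymm
    · intro y hy
      by_cases hy0 : y = 0
      · rw [hy0]; exact Submodule.zero_mem _
      intro _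
      by_contra hlt
      push Not at hlt
      have h1 := hs y x hy0 hx (hlt.trans_le (hxa hx))
      have h2 := hy hy0
      rw [lex_w, lex_w] at h2
      linarith
    · intro y hy hy0
      exact hmin y hy hy0
  · push Not at hex
    by_cases hV : ∃ y : V, y ≠ 0
    · obtain ⟨y0, hy0⟩ := hV
      obtain ⟨y, -, hy, hmax⟩ := (F.lex h α H).exists_max Set.univ ⟨y0, trivial, hy0⟩
      refine ⟨(F.lex h α H).w y + 1, ?_⟩
      apply le_antisymm
      · intro z hz
        by_cases hz0 : z = 0
        · rw [hz0]; exact Submodule.zero_mem _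
        exfalso
        have h1 := hz hz0
        have h2 := hmax z trivial hz0
        linarith
      · intro z hz
        by_cases hz0 : z = 0
        · rw [hz0]; exact Submodule.zero_mem _
        exact absurd hz (hex z hz0)
    · push Not at hV
      refine ⟨0, ?_⟩
      ext z
      rw [hV z]
      simp

/-- For bounded `h` all large `α` are admissible, strictly. -/
theorem exists_alpha [FiniteDimensional K V] (F : Wt K V) (h : V → ℝ) (M : ℝ)
    (hM : ∀ x, x ≠ 0 → |h x| ≤ M) : ∃ α0 : ℝ, ∀ α, α0 ≤ α → LexStrict F h α := by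
  classical
  set S : Finset ℝ := F.finite_values.toFinset with hS
  have hmemS : ∀ x, x ≠ 0 → F.w x ∈ S := fun x hx => by
    rw [hS, Set.Finite.mem_toFinset]; exact ⟨x, hx, rfl⟩
  -- the smallest gap
  obtain ⟨δ, hδ, hgap⟩ : ∃ δ : ℝ, 0 < δ ∧ ∀ a ∈ S, ∀ b ∈ S, a < b → δ ≤ b - a := by
    set P : Finset (ℝ × ℝ) := (S ×ˢ S).filter (fun p => p.1 < p.2) with hP
    by_cases hne : P.Nonempty
    · obtain ⟨p, hp, hmin⟩ := Finset.exists_min_image P (fun p => p.2 - p.1) hne
      refine ⟨p.2 - p.1, ?_, fun a ha b hb hab => ?_⟩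
      · have := (Finset.mem_filter.1 hp).2; linarith
      · exact hmin (a, b) (Finset.mem_filter.2 ⟨Finset.mk_mem_product ha hb, hab⟩)
    · refine ⟨1, one_pos, fun a ha b hb hab => ?_⟩
      exact absurd ⟨(a, b), Finset.mem_filter.2 ⟨Finset.mk_mem_product ha hb, hab⟩⟩ hne
  refine ⟨(2 * |M| + 1) / δ, fun α hα x y hx hy hlt => ?_⟩
  have h1 := hgap _ (hmemS x hx) _ (hmemS y hy) hlt
  have h2 := hM x hx
  have h3 := hM y hy
  rw [abs_le] at h2 h3
  have hM' := le_abs_self M
  have hα0 : 0 ≤ α := le_trans (by positivity) hα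
  have h4 : 2 * |M| + 1 ≤ α * (F.w y - F.w x) := by
    calc 2 * |M| + 1 = (2 * |M| + 1) / δ * δ := by field_simp
      _ ≤ α * δ := by apply mul_le_mul_of_nonneg_right hα hδ.le
      _ ≤ α * (F.w y - F.w x) := mul_le_mul_of_nonneg_left h1 hα0
  nlinarith

end Wt

end Vale.Agent.P271.Filt
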