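import Vale.Agent.P271.Filt.Joint

/-!
# P271 / Filt : quotient filtrations and the quotient total weight
-/

namespace Vale.Agent.P271.Filt

open Module

namespace Wt

variable {K : Type*} {V : Type*} [Field K] [AddCommGroup V] [Module K V]

/-! ### Bases of `P` and of `V ⧸ P` from a compatible basis -/

section CompatBasis

variable {ι : Type*} {b : Basis ι K V} {P : Submodule K V}

theorem Compat.mem_span (h : Compat b P) {x : V} (hx : x ∈ P) :
    x ∈ Submodule.span K (b '' {i | b i ∈ P}) := by
  rw [Basis.mem_span_image]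
  intro i hi
  exact h x hx i (by simpa using hi)

/-- The members of a compatible basis in `P` form a basis of `P`. -/
noncomputable def basisSub (h : Compat b P) : Basis {i // b i ∈ P} K P :=
  Basis.mk (v := fun i : {i // b i ∈ P} => (⟨b i, i.2⟩ : P))
    (by
      have h1 : LinearIndependent K (fun i : {i // b i ∈ P} => b i) :=
        b.linearIndependent.comp _ Subtype.val_injective
      exact LinearIndependent.of_comp P.subtype h1)
    (by
      rintro ⟨x, hx⟩ -
      have h2 := h.mem_span hx
      have h3 : Submodule.span K (b '' {i | b i ∈ P}) =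
          (Submodule.span K (Set.range (fun i : {i // b i ∈ P} => (⟨b i, i.2⟩ : P)))).map
            P.subtype := by
        rw [Submodule.map_span]
        congr 1
        ext y
        constructor
        · rintro ⟨i, hi, rfl⟩
          exact ⟨⟨b i, hi⟩, ⟨⟨i, hi⟩, rfl⟩, rfl⟩
        · rintro ⟨_, ⟨⟨i, hi⟩, rfl⟩, rfl⟩
          exact ⟨i, hi, rfl⟩
      rw [h3] at h2
      obtain ⟨y, hy, hyx⟩ := h2
      have : y = ⟨x, hx⟩ := Subtype.ext hyx
      rwa [← this])

@[simp] theorem basisSub_apply (h : Compat b P) (i : {i // b i ∈ P}) :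
    (basisSub h i : V) = b i := by
  rw [basisSub, Basis.mk_apply]

/-- The classes of the members of a compatible basis outside `P` form a basis of `V ⧸ P`. -/
noncomputable def basisQuot (h : Compat b P) : Basis {i // b i ∉ P} K (V ⧸ P) :=
  Basis.mk (v := fun i : {i // b i ∉ P} => P.mkQ (b i))
    (by
      classical
      rw [linearIndependent_iff']
      intro s g hg i hi
      have hmem : ∑ j ∈ s, g j • b j ∈ P := by
        have h0 : P.mkQ (∑ j ∈ s, g j • b j) = 0 := by
          rw [map_sum]
          simpa only [map_smul] using hg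
        rwa [← LinearMap.mem_ker, Submodule.ker_mkQ] at h0
      by_contra hne
      have hrepr : b.repr (∑ j ∈ s, g j • b j) i = g i := by
        rw [map_sum, Finsupp.coe_finsetSum, Finset.sum_apply, Finset.sum_eq_single i]
        · simp
        · intro j _ hji
          have : (j : ι) ≠ i := fun hh => hji (Subtype.ext hh)
          simp [this]
        · intro hcon
          exact absurd hi hcon
      exact i.2 (h _ hmem i (by rw [hrepr]; exact hne)))
    (by
      classical
      rintro q -
      obtain ⟨x, rfl⟩ := Submodule.mkQ_surjective P q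
      rw [← b.linearCombination_repr x, Finsupp.linearCombination_apply, Finsupp.sum, map_sum]
      refine Submodule.sum_mem _ (fun i _ => ?_)
      rw [map_smul]
      by_cases hi : b i ∈ P
      · have : P.mkQ (b i) = 0 := by rwa [← LinearMap.mem_ker, Submodule.ker_mkQ]
        rw [this, smul_zero]
        exact Submodule.zero_mem _
      · exact Submodule.smul_mem _ _ (Submodule.subset_span ⟨⟨i, hi⟩, rfl⟩))

@[simp] theorem basisQuot_apply (h : Compat b P) (i : {i // b i ∉ P}) :
    basisQuot h i = P.mkQ (b i) := by
  rw [basisQuot, Basis.mk_apply]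

theorem basisQuot_repr (h : Compat b P) (x : V) (i : {i // b i ∉ P}) :
    (basisQuot h).repr (P.mkQ x) i = b.repr x i := by
  classical
  have key : ((basisQuot h).coord i).comp P.mkQ = b.coord i := by
    refine b.ext (fun j => ?_)
    rw [LinearMap.comp_apply, Basis.coord_apply, Basis.coord_apply]
    by_cases hj : b j ∈ P
    · have h0 : P.mkQ (b j) = 0 := by rwa [← LinearMap.mem_ker, Submodule.ker_mkQ]
      have hne : j ≠ i := fun hh => i.2 (hh ▸ hj)
      rw [h0, map_zero, Basis.repr_self]
      simp [hne]
    · have h1 : P.mkQ (b j) = basisQuot h ⟨j, hj⟩ := by rw [basisQuot_apply]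
      rw [h1, Basis.repr_self, Basis.repr_self]
      by_cases hij : j = i
      · have : (⟨j, hj⟩ : {i // b i ∉ P}) = i := Subtype.ext hij
        rw [this, Finsupp.single_eq_same, hij, Finsupp.single_eq_same]
      · have h3 : (⟨j, hj⟩ : {i // b i ∉ P}) ≠ i := fun hh => hij (by rw [← hh])
        simp [hij, h3]
  have := congrArg (fun g => g x) key
  simpa using this

end CompatBasis

section FD

variable [FiniteDimensional K V] (F G : Wt K V)

/-! ### The quotient filtration -/

theorem exists_sup_lift (P : Submodule K V) {q : V ⧸ P} (hq : q ≠ 0) :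
    ∃ y : V, P.mkQ y = q ∧ ∀ y' : V, P.mkQ y' = q → F.w y' ≤ F.w y := by
  obtain ⟨y0, hy0⟩ := Submodule.mkQ_surjective P q
  have hne : ∀ y : V, P.mkQ y = q → y ≠ 0 := by
    rintro y hy rfl
    exact hq (by rw [← hy, map_zero])
  obtain ⟨y, hy, -, hmax⟩ := F.exists_max {y | P.mkQ y = q} ⟨y0, hy0, hne y0 hy0⟩
  exact ⟨y, hy, fun y' hy' => hmax y' hy' (hne y' hy')⟩

open Classical in
/-- The quotient filtration: the weight of a class is the largest weight of a lift. -/
noncomputable def quot (P : Submodule K V) : Wt K (V ⧸ P) where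
  w q := if h : q ≠ 0 then F.w (F.exists_sup_lift P h).choose else 0
  smul_le' := by
    intro c q hc hq
    have hcq : c • q ≠ 0 := smul_ne_zero hc hq
    rw [dif_pos hq, dif_pos hcq]
    set y := (F.exists_sup_lift P hq).choose with hy
    have hy1 : P.mkQ y = q := (F.exists_sup_lift P hq).choose_spec.1
    have hy0 : y ≠ 0 := by
      intro h0
      exact hq (by rw [← hy1, h0, map_zero])
    have := (F.exists_sup_lift P hcq).choose_spec.2 (c • y) (by rw [map_smul, hy1])
    rwa [F.w_smul c hc y hy0] at this
  add' := by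
    intro q r hq hr hqr
    rw [dif_pos hq, dif_pos hr, dif_pos hqr]
    set y := (F.exists_sup_lift P hq).choose with hy
    set z := (F.exists_sup_lift P hr).choose with hz
    have hy1 : P.mkQ y = q := (F.exists_sup_lift P hq).choose_spec.1
    have hz1 : P.mkQ z = r := (F.exists_sup_lift P hr).choose_spec.1
    have hy0 : y ≠ 0 := by
      intro h0
      exact hq (by rw [← hy1, h0, map_zero])
    have hz0 : z ≠ 0 := by
      intro h0
      exact hr (by rw [← hz1, h0, map_zero])
    have hyz : P.mkQ (y + z) = q + r := by rw [map_add, hy1, hz1]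
    have hyz0 : y + z ≠ 0 := by
      intro h0
      exact hqr (by rw [← hyz, h0, map_zero])
    exact (F.add' y z hy0 hz0 hyz0).trans ((F.exists_sup_lift P hqr).choose_spec.2 _ hyz)

theorem exists_lift (P : Submodule K V) {q : V ⧸ P} (hq : q ≠ 0) :
    ∃ y : V, P.mkQ y = q ∧ F.w y = (F.quot P).w q := by
  refine ⟨(F.exists_sup_lift P hq).choose, (F.exists_sup_lift P hq).choose_spec.1, ?_⟩
  simp only [quot]
  rw [dif_pos hq]

theorem w_le_quot (P : Submodule K V) {y : V} (hy : P.mkQ y ≠ 0) :
    F.w y ≤ (F.quot P).w (P.mkQ y) := by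
  simp only [quot]
  rw [dif_pos hy]
  exact (F.exists_sup_lift P hy).choose_spec.2 y rfl

theorem quot_mono {F G : Wt K V} (h : ∀ x, x ≠ 0 → F.w x ≤ G.w x) (P : Submodule K V)
    {q : V ⧸ P} (hq : q ≠ 0) : (F.quot P).w q ≤ (G.quot P).w q := by
  obtain ⟨y, hy, hyw⟩ := F.exists_lift P hq
  have hy0 : y ≠ 0 := by
    rintro rfl
    exact hq (by rw [← hy, map_zero])
  rw [← hyw, ← hy]
  exact (h y hy0).trans (G.w_le_quot P (by rw [hy]; exact hq))

variable {F G}

theorem quot_basis {ι : Type*} {b : Basis ι K V} (hb : F.Adapted b) {P : Submodule K V}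
    (hP : Compat b P) {i : ι} (hi : b i ∉ P) : (F.quot P).w (P.mkQ (b i)) = F.w (b i) := by
  have hq : P.mkQ (b i) ≠ 0 := by
    intro h0
    rw [← LinearMap.mem_ker, Submodule.ker_mkQ] at h0
    exact hi h0
  apply le_antisymm
  · obtain ⟨y, hy, hyw⟩ := F.exists_lift P hq
    rw [← hyw]
    apply hb
    have h1 := basisQuot_repr hP y ⟨i, hi⟩
    have h2 := basisQuot_repr hP (b i) ⟨i, hi⟩
    rw [hy] at h1
    rw [← h1, h2]
    simp
  · exact F.w_le_quot P hq

theorem quot_adapted {ι : Type*} {b : Basis ι K V} (hb : F.Adapted b) {P : Submodule K V}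
    (hP : Compat b P) : (F.quot P).Adapted (basisQuot hP) := by
  intro q i hi
  have hq : q ≠ 0 := by rintro rfl; simp at hi
  obtain ⟨y, hy, hyw⟩ := F.exists_lift P hq
  rw [basisQuot_apply, quot_basis hb hP i.2, ← hyw]
  apply hb
  rw [← basisQuot_repr hP y i, hy]
  exact hi

omit [FiniteDimensional K V] in
theorem restrict_adapted {ι : Type*} {b : Basis ι K V} (hb : F.Adapted b) {P : Submodule K V}
    (hP : Compat b P) : (F.restrict P).Adapted (basisSub hP) := by
  classical
  intro x i hi
  rw [restrict_w, restrict_w, basisSub_apply]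
  apply hb
  -- coordinates of `x` in the two bases agree
  have key : ∀ x : P, b.repr (x : V) i = (basisSub hP).repr x i := by
    intro x
    have h1 : (b.coord i).comp P.subtype = (basisSub hP).coord i := by
      refine (basisSub hP).ext (fun j => ?_)
      rw [LinearMap.comp_apply, Basis.coord_apply, Basis.coord_apply, Submodule.subtype_apply,
        basisSub_apply, Basis.repr_self, Basis.repr_self]
      by_cases hij : j = i
      · rw [hij, Finsupp.single_eq_same, Finsupp.single_eq_same]
      · have h3 : (j : ι) ≠ i := fun hh => hij (Subtype.ext hh)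
        simp [hij, h3]
    have := congrArg (fun g => g x) h1
    simpa using this
  rw [key]
  exact hi

variable (F G)

/-- The total weight of the quotient filtration on `V ⧸ P`. -/
noncomputable def TQ (P : Submodule K V) : ℝ := (F.quot P).T

variable {F G}

/-- On a basis adapted to `F` and compatible with `P`, the quotient total weight is the sum of the
weights of the members outside `P`. -/
theorem TQ_eq_sum {ι : Type*} [Fintype ι] {b : Basis ι K V} (hb : F.Adapted b)
    {P : Submodule K V} (hP : Compat b P) [DecidablePred fun i => b i ∉ P] :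
    F.TQ P = ∑ i with b i ∉ P, F.w (b i) := by
  classical
  rw [TQ, ← (quot_adapted hb hP).sum_eq]
  rw [Finset.sum_subtype (p := fun i => b i ∉ P) (Finset.univ.filter fun i => b i ∉ P)
    (by intro x; simp)]
  exact Finset.sum_congr rfl (fun i _ => by rw [basisQuot_apply, quot_basis hb hP i.2])

theorem T_restrict_eq_sum {ι : Type*} [Fintype ι] {b : Basis ι K V} (hb : F.Adapted b)
    {P : Submodule K V} (hP : Compat b P) [DecidablePred fun i => b i ∈ P] :
    (F.restrict P).T = ∑ i with b i ∈ P, F.w (b i) := by
  classical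
  rw [← (restrict_adapted hb hP).sum_eq]
  rw [Finset.sum_subtype (p := fun i => b i ∈ P) (Finset.univ.filter fun i => b i ∈ P)
    (by intro x; simp)]
  exact Finset.sum_congr rfl (fun i _ => by rw [restrict_w, basisSub_apply])

open Classical in
/-- For every subspace there is a compatible adapted basis. -/
theorem exists_adapted_compat (F : Wt K V) (P : Submodule K V) :
    ∃ b : Basis (Fin (finrank K V)) K V, F.Adapted b ∧ Compat b P := by
  let G : Wt K V :=
    { w := fun x => if x ∈ P then 1 else 0
      smul_le' := by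
        intro c x hc _
        by_cases hx : x ∈ P
        · rw [if_pos hx, if_pos (P.smul_mem c hx)]
        · rw [if_neg hx]
          split_ifs <;> norm_num
      add' := by
        intro x y _ _ _
        by_cases hx : x ∈ P
        · by_cases hy : y ∈ P
          · rw [if_pos (P.add_mem hx hy)]
            exact (min_le_left _ _).trans (by rw [if_pos hx])
          · refine (min_le_right _ _).trans ?_
            rw [if_neg hy]
            split_ifs <;> norm_num
        · refine (min_le_left _ _).trans ?_
          rw [if_neg hx]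
          split_ifs <;> norm_num }
  obtain ⟨b, hF, hG⟩ := F.exists_adapted₂ G
  refine ⟨b, hF, ?_⟩
  have hstep : G.Step P := by
    refine ⟨1, ?_⟩
    ext x
    constructor
    · intro hx
      by_cases h0 : x = 0
      · rw [h0]; exact P.zero_mem
      have h1 : (1 : ℝ) ≤ if x ∈ P then 1 else 0 := hx h0
      by_contra hcon
      rw [if_neg hcon] at h1
      norm_num at h1
    · intro hx h0
      change (1 : ℝ) ≤ if x ∈ P then 1 else 0
      rw [if_pos hx]
  exact hstep.compat hG

/-- Additivity of the total weight. -/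
theorem T_eq_restrict_add_TQ (F : Wt K V) (P : Submodule K V) :
    F.T = (F.restrict P).T + F.TQ P := by
  classical
  obtain ⟨b, hb, hP⟩ := F.exists_adapted_compat P
  rw [T_restrict_eq_sum hb hP, TQ_eq_sum hb hP, ← hb.sum_eq]
  exact (Finset.sum_filter_add_sum_filter_not _ _ _).symm

theorem TQ_bot (F : Wt K V) : F.TQ ⊥ = F.T := by
  classical
  have hc := F.step_bot.compat F.adapted_adb
  rw [TQ_eq_sum F.adapted_adb hc, ← F.adapted_adb.sum_eq]
  refine Finset.sum_congr ?_ (fun _ _ => rfl)
  ext i
  simp [F.adb.ne_zero i]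

/-- Lifts of a basis of the quotient have total weight at most the quotient total weight. -/
theorem sum_lift_le_TQ {P : Submodule K V} {κ : Type*} [Fintype κ] (c : Basis κ K (V ⧸ P))
    (s : κ → V) (hs : ∀ i, P.mkQ (s i) = c i) : ∑ i, F.w (s i) ≤ F.TQ P := by
  refine le_trans (Finset.sum_le_sum fun i _ => ?_) (sum_le_T c)
  rw [← hs i]
  exact F.w_le_quot P (by rw [hs i]; exact c.ne_zero i)

/-- For every basis compatible with `P`, the members outside `P` have total weight at most the
quotient total weight. -/
theorem sum_not_mem_le_TQ {ι : Type*} [Fintype ι] {b : Basis ι K V} {P : Submodule K V}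
    (hP : Compat b P) [DecidablePred fun i => b i ∉ P] :
    ∑ i with b i ∉ P, F.w (b i) ≤ F.TQ P := by
  classical
  have h := sum_lift_le_TQ (F := F) (basisQuot hP) (fun i => b i)
    (fun i => by rw [basisQuot_apply])
  rw [Finset.sum_subtype (p := fun i => b i ∉ P) (Finset.univ.filter fun i => b i ∉ P)
    (by intro x; simp)]
  exact h

theorem TQ_mono (h : ∀ x, x ≠ 0 → F.w x ≤ G.w x) (P : Submodule K V) : F.TQ P ≤ G.TQ P :=
  T_mono fun _ hq => quot_mono h P hq

/-- The quotient total weight of the joint filtration, for a step of `F`. -/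
theorem TQ_joint {t : ℝ} (ht : 0 ≤ t) {P : Submodule K V} (hP : F.Step P) :
    (F.joint G t).TQ P = t * F.TQ P + G.TQ P := by
  classical
  obtain ⟨b, hF, hG⟩ := F.exists_adapted₂ G
  have hc := hP.compat hF
  rw [TQ_eq_sum (joint_adapted ht hF hG) hc, TQ_eq_sum hF hc, TQ_eq_sum hG hc, Finset.mul_sum,
    ← Finset.sum_add_distrib]
  exact Finset.sum_congr rfl (fun i _ => joint_basis ht hF hG i)

/-- The quotient total weight is nonnegative for nonnegative weights, and positive if moreover
some vector outside `P` has positive weight. -/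
theorem TQ_nonneg (h : ∀ x, x ≠ 0 → 0 ≤ F.w x) (P : Submodule K V) : 0 ≤ F.TQ P := by
  classical
  obtain ⟨b, hb, hP⟩ := F.exists_adapted_compat P
  rw [TQ_eq_sum hb hP]
  exact Finset.sum_nonneg (fun i _ => h _ (b.ne_zero i))

theorem TQ_pos_iff (h : ∀ x, x ≠ 0 → 0 ≤ F.w x) {P : Submodule K V} :
    0 < F.TQ P ↔ ∃ x, x ∉ P ∧ 0 < F.w x := by
  classical
  obtain ⟨b, hb, hP⟩ := F.exists_adapted_compat P
  rw [TQ_eq_sum hb hP]
  constructor
  · intro hpos
    by_contra hcon
    push Not at hcon
    have : ∑ i with b i ∉ P, F.w (b i) ≤ 0 :=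
      Finset.sum_nonpos (fun i hi => hcon _ (Finset.mem_filter.mp hi).2)
    linarith
  · rintro ⟨x, hx, hwx⟩
    have hex : ∃ i, b.repr x i ≠ 0 ∧ b i ∉ P := by
      by_contra hcon
      push Not at hcon
      apply hx
      rw [← b.sum_repr x]
      refine Submodule.sum_mem _ (fun i _ => ?_)
      by_cases hi : b.repr x i = 0
      · rw [hi, zero_smul]; exact P.zero_mem
      · exact P.smul_mem _ (hcon i hi)
    obtain ⟨i, hi, hiP⟩ := hex
    refine Finset.sum_pos' (fun j _ => h _ (b.ne_zero j))
      ⟨i, Finset.mem_filter.mpr ⟨Finset.mem_univ _, hiP⟩, hwx.trans_le (hb x i hi)⟩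

/-- If `P` contains all vectors of positive weight (and weights are nonnegative), then the quotient
total weight vanishes. -/
theorem TQ_eq_zero (h : ∀ x, x ≠ 0 → 0 ≤ F.w x) {P : Submodule K V} (hP : F.subGt 0 ≤ P) :
    F.TQ P = 0 := by
  apply le_antisymm _ (TQ_nonneg h P)
  by_contra hcon
  push Not at hcon
  obtain ⟨x, hx, hwx⟩ := (TQ_pos_iff h).mp hcon
  exact hx (hP (fun _ => hwx))

end FD

end Wt

end Vale.Agent.P271.Filt
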