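import Mathlib

/-!
# P271 / Filt : filtrations of a finite dimensional vector space as weight functions

A filtration of `V` indexed by real numbers (decreasing, exhaustive, separated, with finitely many
jumps) is encoded by its weight function `w : V → ℝ`, of which only the values at nonzero vectors
are used.
-/

namespace Vale.Agent.P271.Filt

open Module

variable {K : Type*} {V : Type*} [Field K] [AddCommGroup V] [Module K V]

/-- A weight function (non-archimedean norm, written additively) on the vector space `V`. Only the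
values at nonzero vectors matter. -/
structure Wt (K : Type*) (V : Type*) [Field K] [AddCommGroup V] [Module K V] where
  w : V → ℝ
  smul_le' : ∀ (c : K) (x : V), c ≠ 0 → x ≠ 0 → w x ≤ w (c • x)
  add' : ∀ x y : V, x ≠ 0 → y ≠ 0 → x + y ≠ 0 → min (w x) (w y) ≤ w (x + y)

namespace Wt

variable (F G : Wt K V)

theorem w_smul (c : K) (hc : c ≠ 0) (x : V) (hx : x ≠ 0) : F.w (c • x) = F.w x := by
  apply le_antisymm
  · have h := F.smul_le' c⁻¹ (c • x) (inv_ne_zero hc) (smul_ne_zero hc hx)
    rwa [smul_smul, inv_mul_cancel₀ hc, one_smul] at h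
  · exact F.smul_le' c x hc hx

theorem w_neg (x : V) : F.w (-x) = F.w x := by
  by_cases hx : x = 0
  · simp [hx]
  · have h := F.w_smul (-1) (by simp) x hx
    simpa using h

/-- The subspace of vectors of weight at least `a`. -/
def sub (a : ℝ) : Submodule K V where
  carrier := {x | x ≠ 0 → a ≤ F.w x}
  zero_mem' := fun h => absurd rfl h
  add_mem' := by
    intro x y hx hy hxy
    by_cases h1 : x = 0
    · subst h1
      rw [zero_add] at hxy ⊢
      exact hy hxy
    by_cases h2 : y = 0
    · subst h2
      rw [add_zero] at hxy ⊢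
      exact hx hxy
    exact le_trans (le_min (hx h1) (hy h2)) (F.add' x y h1 h2 hxy)
  smul_mem' := by
    intro c x hx hcx
    have hc : c ≠ 0 := fun h => hcx (by rw [h, zero_smul])
    have hx0 : x ≠ 0 := fun h => hcx (by rw [h, smul_zero])
    rw [F.w_smul c hc x hx0]
    exact hx hx0

theorem mem_sub {a : ℝ} {x : V} : x ∈ F.sub a ↔ (x ≠ 0 → a ≤ F.w x) := Iff.rfl

theorem mem_sub_of_ne {a : ℝ} {x : V} (hx : x ≠ 0) : x ∈ F.sub a ↔ a ≤ F.w x :=
  ⟨fun h => h hx, fun h _ => h⟩

theorem self_mem_sub (x : V) : x ∈ F.sub (F.w x) := fun _ => le_rfl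

theorem sub_antitone : Antitone F.sub := fun _ _ hab _ hx h0 => hab.trans (hx h0)

/-- The subspace of vectors of weight larger than `a`. -/
def subGt (a : ℝ) : Submodule K V where
  carrier := {x | x ≠ 0 → a < F.w x}
  zero_mem' := fun h => absurd rfl h
  add_mem' := by
    intro x y hx hy hxy
    by_cases h1 : x = 0
    · subst h1
      rw [zero_add] at hxy ⊢
      exact hy hxy
    by_cases h2 : y = 0
    · subst h2
      rw [add_zero] at hxy ⊢
      exact hx hxy
    exact lt_of_lt_of_le (lt_min (hx h1) (hy h2)) (F.add' x y h1 h2 hxy)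
  smul_mem' := by
    intro c x hx hcx
    have hc : c ≠ 0 := fun h => hcx (by rw [h, zero_smul])
    have hx0 : x ≠ 0 := fun h => hcx (by rw [h, smul_zero])
    rw [F.w_smul c hc x hx0]
    exact hx hx0

theorem mem_subGt {a : ℝ} {x : V} : x ∈ F.subGt a ↔ (x ≠ 0 → a < F.w x) := Iff.rfl

theorem mem_subGt_of_ne {a : ℝ} {x : V} (hx : x ≠ 0) : x ∈ F.subGt a ↔ a < F.w x :=
  ⟨fun h => h hx, fun h _ => h⟩

theorem subGt_le_sub (a : ℝ) : F.subGt a ≤ F.sub a := fun _ hx h0 => (hx h0).le

/-- If the weights differ, the weight of a sum is the minimum. -/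
theorem w_add_of_lt {x y : V} (hx : x ≠ 0) (hy : y ≠ 0) (h : F.w x < F.w y) :
    x + y ≠ 0 ∧ F.w (x + y) = F.w x := by
  have h0 : x + y ≠ 0 := by
    intro h0
    have : x = -y := eq_neg_of_add_eq_zero_left h0
    rw [this, F.w_neg] at h
    exact lt_irrefl _ h
  refine ⟨h0, le_antisymm ?_ ?_⟩
  · by_contra hlt
    push Not at hlt
    have h1 := F.add' (x + y) (-y) h0 (neg_ne_zero.mpr hy) (by simpa using hx)
    rw [F.w_neg, add_neg_cancel_right] at h1
    exact absurd h1 (not_le.mpr (lt_min hlt h))
  · have h1 := F.add' x y hx hy h0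
    rwa [min_eq_left h.le] at h1

/-- The weight function with values in ℝ of a sum of vectors. -/
theorem le_w_sum {ι : Type*} (s : Finset ι) (f : ι → V) (a : ℝ)
    (hf : ∀ i ∈ s, f i ≠ 0 → a ≤ F.w (f i)) (h0 : ∑ i ∈ s, f i ≠ 0) :
    a ≤ F.w (∑ i ∈ s, f i) := by
  have : ∑ i ∈ s, f i ∈ F.sub a := Submodule.sum_mem _ (fun i hi => hf i hi)
  exact this h0

/-! ### Adapted bases -/

/-- The basis `b` is adapted to the filtration `F`: the weight of a vector is the least weight of
the basis vectors that occur in it. -/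
def Adapted {ι : Type*} (b : Basis ι K V) : Prop :=
  ∀ (x : V) (i : ι), b.repr x i ≠ 0 → F.w x ≤ F.w (b i)

variable {F G}

theorem le_w_of_forall_basis {ι : Type*} (b : Basis ι K V) {x : V} (hx : x ≠ 0) {a : ℝ}
    (h : ∀ i, b.repr x i ≠ 0 → a ≤ F.w (b i)) : a ≤ F.w x := by
  classical
  have hmem : x ∈ F.sub a := by
    rw [← b.linearCombination_repr x, Finsupp.linearCombination_apply, Finsupp.sum]
    refine Submodule.sum_mem _ (fun i hi => ?_)
    refine Submodule.smul_mem _ _ (fun _ => h i (by simpa using hi))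
  exact hmem hx

theorem Adapted.exists_eq {ι : Type*} {b : Basis ι K V} (hb : F.Adapted b) {x : V} (hx : x ≠ 0) :
    ∃ i, b.repr x i ≠ 0 ∧ F.w x = F.w (b i) := by
  classical
  have hne : (b.repr x).support.Nonempty := by
    rw [Finsupp.support_nonempty_iff]
    simpa using hx
  obtain ⟨i, hi, hmin⟩ := Finset.exists_min_image (b.repr x).support (fun i => F.w (b i)) hne
  refine ⟨i, by simpa using hi, le_antisymm (hb x i (by simpa using hi)) ?_⟩
  exact le_w_of_forall_basis b hx (fun j hj => hmin j (by simpa using hj))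

/-- A step of the filtration is spanned by the members of an adapted basis that it contains. -/
theorem Adapted.sub_eq_span {ι : Type*} {b : Basis ι K V} (hb : F.Adapted b) (a : ℝ) :
    F.sub a = Submodule.span K (b '' {i | a ≤ F.w (b i)}) := by
  classical
  apply le_antisymm
  · intro x hx
    by_cases h0 : x = 0
    · rw [h0]; exact Submodule.zero_mem _
    rw [← b.linearCombination_repr x, Finsupp.linearCombination_apply, Finsupp.sum]
    refine Submodule.sum_mem _ (fun i hi => Submodule.smul_mem _ _ (Submodule.subset_span ?_))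
    exact ⟨i, (hx h0).trans (hb x i (by simpa using hi)), rfl⟩
  · rw [Submodule.span_le]
    rintro _ ⟨i, hi, rfl⟩
    exact fun _ => hi

theorem Adapted.mem_sub_iff {ι : Type*} {b : Basis ι K V} (hb : F.Adapted b) {a : ℝ} {x : V} :
    x ∈ F.sub a ↔ ∀ i, b.repr x i ≠ 0 → a ≤ F.w (b i) := by
  constructor
  · intro hx i hi
    have h0 : x ≠ 0 := by
      rintro rfl
      simp at hi
    exact (hx h0).trans (hb x i hi)
  · intro h h0
    exact le_w_of_forall_basis b h0 h

/-- Two filtrations that agree on a common adapted basis are equal (at nonzero vectors). -/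
theorem Adapted.eq_of_eq {ι : Type*} {b : Basis ι K V} (hF : F.Adapted b) (hG : G.Adapted b)
    (h : ∀ i, F.w (b i) = G.w (b i)) {x : V} (hx : x ≠ 0) : F.w x = G.w x := by
  apply le_antisymm
  · exact le_w_of_forall_basis b hx (fun i hi => by rw [← h i]; exact hF x i hi)
  · exact le_w_of_forall_basis b hx (fun i hi => by rw [h i]; exact hG x i hi)

theorem Adapted.reindex {ι κ : Type*} {b : Basis ι K V} (hb : F.Adapted b) (e : ι ≃ κ) :
    F.Adapted (b.reindex e) := by
  intro x i hi
  have h := hb x (e.symm i) (by simpa using hi)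
  simpa using h

/-! ### Restriction to a subspace -/

/-- The restriction of a filtration to a subspace. -/
def restrict (F : Wt K V) (H : Submodule K V) : Wt K H where
  w x := F.w x
  smul_le' c x hc hx := F.smul_le' c x hc (by simpa using hx)
  add' x y hx hy hxy := F.add' x y (by simpa using hx) (by simpa using hy) (by
    intro h; exact hxy (Subtype.ext (by simpa using h)))

@[simp] theorem restrict_w (F : Wt K V) (H : Submodule K V) (x : H) :
    (F.restrict H).w x = F.w x := rfl

end Wt

end Vale.Agent.P271.Filt
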