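import Vale.Agent.P271.Filt.Basic

/-!
# P271 / Filt : common adapted bases of two filtrations, total weight
-/

namespace Vale.Agent.P271.Filt

open Module

namespace Wt

section Values

variable {K : Type*} {V : Type*} [Field K] [AddCommGroup V] [Module K V] [FiniteDimensional K V]

theorem finite_values (F : Wt K V) : (F.w '' {x | x ≠ 0}).Finite := by
  have hinj : Set.InjOn (fun a : ℝ => finrank K (F.sub a)) (F.w '' {x | x ≠ 0}) := by
    have key : ∀ x y : V, x ≠ 0 → F.w x < F.w y →
        finrank K (F.sub (F.w y)) < finrank K (F.sub (F.w x)) := by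
      intro x y hx hlt
      refine Submodule.finrank_lt_finrank_of_lt (lt_of_le_of_ne (F.sub_antitone hlt.le) ?_)
      intro heq
      have h1 : x ∈ F.sub (F.w y) := by rw [heq]; exact F.self_mem_sub x
      exact absurd (h1 hx) (not_le.mpr hlt)
    rintro _ ⟨x, hx, rfl⟩ _ ⟨y, hy, rfl⟩ hxy
    simp only at hxy
    rcases lt_trichotomy (F.w x) (F.w y) with h | h | h
    · exact absurd hxy (key x y hx h).ne'
    · exact h
    · exact absurd hxy (key y x hy h).ne
  refine Set.Finite.of_finite_image ((Set.finite_Iic (finrank K V)).subset ?_) hinj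
  rintro _ ⟨a, -, rfl⟩
  exact Submodule.finrank_le _

theorem exists_min (F : Wt K V) (s : Set V) (hs : ∃ x ∈ s, x ≠ 0) :
    ∃ x ∈ s, x ≠ 0 ∧ ∀ y ∈ s, y ≠ 0 → F.w x ≤ F.w y := by
  obtain ⟨x0, hx0, hx0'⟩ := hs
  have hfin : (F.w '' {x | x ∈ s ∧ x ≠ 0}).Finite :=
    F.finite_values.subset (Set.image_mono fun x hx => hx.2)
  obtain ⟨a, ⟨x, hx, rfl⟩, hmin⟩ := Set.exists_min_image _ id hfin ⟨_, x0, ⟨hx0, hx0'⟩, rfl⟩
  exact ⟨x, hx.1, hx.2, fun y hy hy0 => hmin _ ⟨y, ⟨hy, hy0⟩, rfl⟩⟩

theorem exists_max (F : Wt K V) (s : Set V) (hs : ∃ x ∈ s, x ≠ 0) :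
    ∃ x ∈ s, x ≠ 0 ∧ ∀ y ∈ s, y ≠ 0 → F.w y ≤ F.w x := by
  obtain ⟨x0, hx0, hx0'⟩ := hs
  have hfin : (F.w '' {x | x ∈ s ∧ x ≠ 0}).Finite :=
    F.finite_values.subset (Set.image_mono fun x hx => hx.2)
  obtain ⟨a, ⟨x, hx, rfl⟩, hmax⟩ := Set.exists_max_image _ id hfin ⟨_, x0, ⟨hx0, hx0'⟩, rfl⟩
  exact ⟨x, hx.1, hx.2, fun y hy hy0 => hmax _ ⟨y, ⟨hy, hy0⟩, rfl⟩⟩

end Values

section Common

variable {K : Type*} [Field K]

/-- Two filtrations of a finite dimensional space have a common adapted basis. -/
theorem exists_adapted₂_aux (n : ℕ) : ∀ (V : Type*) [AddCommGroup V] [Module K V]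
    [FiniteDimensional K V] (F G : Wt K V), finrank K V = n →
    ∃ b : Basis (Fin n) K V, F.Adapted b ∧ G.Adapted b := by
  induction n with
  | zero =>
    intro V _ _ _ F G hn
    exact ⟨finBasisOfFinrankEq K V hn, fun _ i => i.elim0, fun _ i => i.elim0⟩
  | succ n ih =>
    intro V _ _ _ F G hn
    have hnt : Nontrivial V := nontrivial_of_finrank_pos (R := K) (by omega)
    obtain ⟨x1, hx1⟩ := exists_ne (0 : V)
    obtain ⟨x0, -, hx0, hmin⟩ := F.exists_min Set.univ ⟨x1, trivial, hx1⟩
    have hproper : F.subGt (F.w x0) < ⊤ := by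
      rw [lt_top_iff_ne_top]
      intro h
      have : x0 ∈ F.subGt (F.w x0) := by rw [h]; trivial
      exact lt_irrefl _ (this hx0)
    obtain ⟨f, hf0, hfle⟩ := Submodule.exists_le_ker_of_lt_top _ hproper
    obtain ⟨e0, he0⟩ : ∃ e, f e ≠ 0 := by
      by_contra hcon
      push Not at hcon
      exact hf0 (LinearMap.ext hcon)
    obtain ⟨e, hfe, he, hmax⟩ := G.exists_max {x | f x ≠ 0}
      ⟨e0, he0, fun h => he0 (by rw [h, map_zero])⟩
    have hH : finrank K (LinearMap.ker f) = n := by
      have hsurj : LinearMap.range f = ⊤ := by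
        rw [LinearMap.range_eq_top]
        exact LinearMap.surjective_of_ne_zero hf0
      have := LinearMap.finrank_range_add_finrank_ker f
      rw [hsurj, finrank_top, finrank_self, hn] at this
      omega
    obtain ⟨b', hb'F, hb'G⟩ := ih (LinearMap.ker f) (F.restrict _) (G.restrict _) hH
    have hli : ∀ (c : K), ∀ x ∈ LinearMap.ker f, c • e + x = 0 → c = 0 := by
      intro c x hx hcx
      have h1 : f (c • e + x) = 0 := by rw [hcx, map_zero]
      rw [map_add, map_smul, LinearMap.mem_ker.mp hx, add_zero, smul_eq_mul] at h1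
      exact (mul_eq_zero.mp h1).resolve_right hfe
    have hsp : ∀ z : V, ∃ c : K, z + c • e ∈ LinearMap.ker f := by
      intro z
      refine ⟨-(f z / f e), ?_⟩
      have hfe' : f e ≠ 0 := hfe
      rw [LinearMap.mem_ker, map_add, map_smul, smul_eq_mul, neg_mul, div_mul_cancel₀ _ hfe']
      ring
    set b := Basis.mkFinCons e b' hli hsp with hb
    have hb0 : b 0 = e := by rw [hb, Basis.coe_mkFinCons]; rfl
    have hbs : ∀ i : Fin n, b i.succ = (b' i : V) := by
      intro i
      rw [hb, Basis.coe_mkFinCons]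
      simp
    -- decomposition
    have hdec : ∀ x : V, ∃ h : LinearMap.ker f, x = b.repr x 0 • e + (h : V) ∧
        ∀ i, b'.repr h i = b.repr x i.succ := by
      intro x
      refine ⟨∑ i, b.repr x i.succ • b' i, ?_, ?_⟩
      · conv_lhs => rw [← b.sum_repr x]
        rw [Fin.sum_univ_succ, hb0]
        congr 1
        rw [AddSubmonoidClass.coe_finsetSum]
        exact Finset.sum_congr rfl (fun i _ => by rw [hbs]; rfl)
      · intro i
        rw [Basis.repr_sum_self]
    refine ⟨b, ?_, ?_⟩
    · intro x i hi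
      have hx : x ≠ 0 := by rintro rfl; simp at hi
      have hbi : b i ≠ 0 := b.ne_zero i
      obtain ⟨h, hxh, hrep⟩ := hdec x
      by_cases hc : b.repr x 0 = 0
      · rw [hc, zero_smul, zero_add] at hxh
        refine Fin.cases (fun h0 => absurd hc h0) (fun j hj => ?_) i hi
        have := hb'F h j (by rw [hrep]; exact hj)
        rw [hbs, hxh]
        exact this
      · have hfx : f x ≠ 0 := by
          have h1 : f x = b.repr x 0 * f e := by
            conv_lhs => rw [hxh]
            rw [map_add, map_smul, LinearMap.mem_ker.mp h.2, add_zero, smul_eq_mul]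
          rw [h1]
          exact mul_ne_zero hc hfe
        have hle : F.w x ≤ F.w x0 := by
          by_contra hcon
          push Not at hcon
          exact hfx (LinearMap.mem_ker.mp (hfle (fun _ => hcon)))
        exact hle.trans (hmin _ trivial hbi)
    · intro x i hi
      have hx : x ≠ 0 := by rintro rfl; simp at hi
      obtain ⟨h, hxh, hrep⟩ := hdec x
      by_cases hc : b.repr x 0 = 0
      · rw [hc, zero_smul, zero_add] at hxh
        refine Fin.cases (fun h0 => absurd hc h0) (fun j hj => ?_) i hi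
        have := hb'G h j (by rw [hrep]; exact hj)
        rw [hbs, hxh]
        exact this
      · have hfx : f x ≠ 0 := by
          have h1 : f x = b.repr x 0 * f e := by
            conv_lhs => rw [hxh]
            rw [map_add, map_smul, LinearMap.mem_ker.mp h.2, add_zero, smul_eq_mul]
          rw [h1]
          exact mul_ne_zero hc hfe
        have hle : G.w x ≤ G.w e := hmax x hfx hx
        refine Fin.cases (fun _ => by rw [hb0]; exact hle) (fun j hj => ?_) i hi
        have hh0 : (h : V) ≠ 0 := by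
          intro h0
          have h00 : h = 0 := by exact_mod_cast h0
          apply hj
          rw [← hrep, h00]
          simp
        have h2 : G.w h ≤ G.w (b j.succ) := by
          rw [hbs]
          exact hb'G h j (by rw [hrep]; exact hj)
        refine le_trans ?_ h2
        have hce : b.repr x 0 • e ≠ 0 := smul_ne_zero hc he
        by_cases hlt : G.w h < G.w e
        · have h3 := G.w_add_of_lt hh0 hce (by rwa [G.w_smul _ hc _ he])
          rw [add_comm] at h3
          rw [← hxh] at h3
          exact h3.2.le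
        · exact hle.trans (not_lt.mp hlt)

end Common

section Total

variable {K : Type*} {V : Type*} [Field K] [AddCommGroup V] [Module K V] [FiniteDimensional K V]

theorem exists_adapted₂ (F G : Wt K V) :
    ∃ b : Basis (Fin (finrank K V)) K V, F.Adapted b ∧ G.Adapted b :=
  exists_adapted₂_aux _ V F G rfl

omit [FiniteDimensional K V] in
/-- For two bases there is a bijection of the index sets along which the coordinates do not
vanish. -/
theorem exists_equiv_repr_ne_zero {ι κ : Type*} [Fintype ι] [Fintype κ] (b : Basis ι K V)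
    (b' : Basis κ K V) : ∃ σ : ι ≃ κ, ∀ i, b'.repr (b i) (σ i) ≠ 0 := by
  classical
  have hcard : Fintype.card ι = Fintype.card κ := by
    rw [← finrank_eq_card_basis b, ← finrank_eq_card_basis b']
  let e : κ ≃ ι := (Fintype.equivOfCardEq hcard).symm
  have hdet : (b'.reindex e).det b ≠ 0 := (b'.reindex e).isUnit_det b |>.ne_zero
  rw [Basis.det_apply, Matrix.det_apply] at hdet
  obtain ⟨σ, -, hσ⟩ := Finset.exists_ne_zero_of_sum_ne_zero hdet
  have hprod : ∏ i, (b'.reindex e).toMatrix b (σ i) i ≠ 0 := by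
    intro h
    rw [h, smul_zero] at hσ
    exact hσ rfl
  rw [Finset.prod_ne_zero_iff] at hprod
  refine ⟨σ.trans e.symm, fun i => ?_⟩
  have := hprod i (Finset.mem_univ i)
  rw [Basis.toMatrix_apply, Basis.repr_reindex_apply] at this
  exact this

variable (F G : Wt K V)

/-- A chosen adapted basis. -/
noncomputable def adb : Basis (Fin (finrank K V)) K V := (F.exists_adapted₂ F).choose

theorem adapted_adb : F.Adapted F.adb := (F.exists_adapted₂ F).choose_spec.1

/-- The total weight: the sum of the jumping numbers with multiplicity. -/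
noncomputable def T : ℝ := ∑ i, F.w (F.adb i)

variable {F G}

omit [FiniteDimensional K V] in
theorem sum_le_of_adapted {ι κ : Type*} [Fintype ι] [Fintype κ] (b : Basis ι K V)
    {b' : Basis κ K V} (hb' : F.Adapted b') : ∑ i, F.w (b i) ≤ ∑ i, F.w (b' i) := by
  obtain ⟨σ, hσ⟩ := exists_equiv_repr_ne_zero b b'
  calc ∑ i, F.w (b i) ≤ ∑ i, F.w (b' (σ i)) := Finset.sum_le_sum (fun i _ => hb' _ _ (hσ i))
    _ = ∑ i, F.w (b' i) := Equiv.sum_comp σ (fun i => F.w (b' i))

theorem Adapted.sum_eq {ι : Type*} [Fintype ι] {b : Basis ι K V} (hb : F.Adapted b) :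
    ∑ i, F.w (b i) = F.T :=
  le_antisymm (sum_le_of_adapted b F.adapted_adb) (sum_le_of_adapted F.adb hb)

/-- For every basis the sum of the weights is at most the total weight. -/
theorem sum_le_T {ι : Type*} [Fintype ι] (b : Basis ι K V) : ∑ i, F.w (b i) ≤ F.T :=
  sum_le_of_adapted b F.adapted_adb

/-- Equality holds only for adapted bases. -/
theorem adapted_of_T_le {ι : Type*} [Fintype ι] {b : Basis ι K V} (h : F.T ≤ ∑ i, F.w (b i)) :
    F.Adapted b := by
  classical
  set b' := F.adb
  have hb' : F.Adapted b' := F.adapted_adb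
  obtain ⟨σ, hσ⟩ := exists_equiv_repr_ne_zero b b'
  have hle : ∀ i ∈ Finset.univ, F.w (b i) ≤ F.w (b' (σ i)) := fun i _ => hb' _ _ (hσ i)
  have hsum : ∑ i, F.w (b i) = ∑ i, F.w (b' (σ i)) := by
    apply le_antisymm (Finset.sum_le_sum hle)
    rw [Equiv.sum_comp σ (fun i => F.w (b' i)), hb'.sum_eq]
    exact h
  have heq : ∀ i, F.w (b i) = F.w (b' (σ i)) := fun i =>
    (Finset.sum_eq_sum_iff_of_le hle).mp hsum i (Finset.mem_univ i)
  intro x i hi
  have hx : x ≠ 0 := by rintro rfl; simp at hi
  -- the subspace `sub (w x)` is spanned by the `b j` in it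
  have hspan : Submodule.span K (b '' {j | F.w x ≤ F.w (b j)}) = F.sub (F.w x) := by
    apply Submodule.eq_of_le_of_finrank_eq
    · rw [Submodule.span_le]
      rintro _ ⟨j, hj, rfl⟩
      exact fun _ => hj
    · rw [hb'.sub_eq_span]
      have h1 : b '' {j | F.w x ≤ F.w (b j)} =
          Set.range (fun j : {j // F.w x ≤ F.w (b j)} => b j) := by
        ext y; simp [Set.mem_image]
      have h2 : b' '' {j | F.w x ≤ F.w (b' j)} =
          Set.range (fun j : {j // F.w x ≤ F.w (b' j)} => b' j) := by
        ext y; simp [Set.mem_image]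
      have h3 : LinearIndependent K (fun j : {j // F.w x ≤ F.w (b j)} => b j) :=
        b.linearIndependent.comp _ Subtype.val_injective
      have h4 : LinearIndependent K (fun j : {j // F.w x ≤ F.w (b' j)} => b' j) :=
        b'.linearIndependent.comp _ Subtype.val_injective
      rw [h1, h2, finrank_span_eq_card h3, finrank_span_eq_card h4]
      exact Fintype.card_congr (σ.subtypeEquiv fun j => by rw [heq j])
  have hmem : x ∈ Submodule.span K (b '' {j | F.w x ≤ F.w (b j)}) := by
    rw [hspan]; exact F.self_mem_sub x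
  rw [Basis.mem_span_image] at hmem
  exact hmem (by simpa using hi)

theorem adapted_iff {ι : Type*} [Fintype ι] {b : Basis ι K V} :
    F.Adapted b ↔ ∑ i, F.w (b i) = F.T :=
  ⟨fun h => h.sum_eq, fun h => adapted_of_T_le h.ge⟩

theorem T_mono (h : ∀ x, x ≠ 0 → F.w x ≤ G.w x) : F.T ≤ G.T := by
  rw [← F.adapted_adb.sum_eq]
  exact (Finset.sum_le_sum fun i _ => h _ (F.adb.ne_zero i)).trans (sum_le_T F.adb)

/-- If `F ≤ G` and the total weights agree, the filtrations are equal. -/
theorem eq_of_le_of_T_le (h : ∀ x, x ≠ 0 → F.w x ≤ G.w x) (hT : G.T ≤ F.T) {x : V}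
    (hx : x ≠ 0) : F.w x = G.w x := by
  obtain ⟨b, hF, hG⟩ := F.exists_adapted₂ G
  rw [← hF.sum_eq, ← hG.sum_eq] at hT
  have hle : ∀ i ∈ Finset.univ, F.w (b i) ≤ G.w (b i) := fun i _ => h _ (b.ne_zero i)
  have heq := (Finset.sum_eq_sum_iff_of_le hle).mp (le_antisymm (Finset.sum_le_sum hle) hT)
  exact hF.eq_of_eq hG (fun i => heq i (Finset.mem_univ i)) hx

end Total

end Wt

end Vale.Agent.P271.Filt
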