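import Vale.Agent.P271.Filt.Common

/-!
# P271 / Filt : steps, weight functions from a basis, the joint filtration `t F + G`
-/

namespace Vale.Agent.P271.Filt

open Module

namespace Wt

variable {K : Type*} {V : Type*} [Field K] [AddCommGroup V] [Module K V]

/-! ### Weight functions from a basis -/

/-- The weight function with weights `l i` on the basis `b`. -/
noncomputable def ofBasis {ι : Type*} (b : Basis ι K V) (l : ι → ℝ) : Wt K V where
  w x := if h : (b.repr x).support.Nonempty then (b.repr x).support.inf' h l else 0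
  smul_le' := by
    intro c x hc hx
    have hsup : (b.repr (c • x)).support = (b.repr x).support := by
      ext i; simp [hc]
    have hne : (b.repr x).support.Nonempty := by
      rw [Finsupp.support_nonempty_iff]; simpa using hx
    have hne' : (b.repr (c • x)).support.Nonempty := by rw [hsup]; exact hne
    rw [dif_pos hne, dif_pos hne']
    refine Finset.le_inf' _ _ (fun i hi => Finset.inf'_le _ ?_)
    rwa [hsup] at hi
  add' := by
    classical
    intro x y hx hy hxy
    have hne : ∀ z : V, z ≠ 0 → (b.repr z).support.Nonempty := by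
      intro z hz
      rw [Finsupp.support_nonempty_iff]; simpa using hz
    rw [dif_pos (hne x hx), dif_pos (hne y hy), dif_pos (hne _ hxy)]
    refine Finset.le_inf' _ _ (fun i hi => ?_)
    have hi' : i ∈ (b.repr x).support ∪ (b.repr y).support := by
      refine Finsupp.support_add ?_
      rwa [← map_add]
    rcases Finset.mem_union.mp hi' with h | h
    · exact (min_le_left _ _).trans (Finset.inf'_le _ h)
    · exact (min_le_right _ _).trans (Finset.inf'_le _ h)

theorem le_ofBasis_iff {ι : Type*} (b : Basis ι K V) (l : ι → ℝ) {x : V} (hx : x ≠ 0) {a : ℝ} :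
    a ≤ (ofBasis b l).w x ↔ ∀ i, b.repr x i ≠ 0 → a ≤ l i := by
  have hne : (b.repr x).support.Nonempty := by
    rw [Finsupp.support_nonempty_iff]; simpa using hx
  have : (ofBasis b l).w x = (b.repr x).support.inf' hne l := dif_pos hne
  rw [this, Finset.le_inf'_iff]
  simp

@[simp] theorem ofBasis_basis {ι : Type*} (b : Basis ι K V) (l : ι → ℝ) (i : ι) :
    (ofBasis b l).w (b i) = l i := by
  classical
  have hbi : b i ≠ 0 := b.ne_zero i
  apply le_antisymm
  · exact (le_ofBasis_iff b l hbi).mp le_rfl i (by simp)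
  · rw [le_ofBasis_iff b l hbi]
    intro j hj
    rw [Basis.repr_self, Finsupp.single_apply] at hj
    by_cases hij : i = j
    · rw [hij]
    · simp [hij] at hj

theorem ofBasis_adapted {ι : Type*} (b : Basis ι K V) (l : ι → ℝ) : (ofBasis b l).Adapted b := by
  intro x i hi
  have hx : x ≠ 0 := by rintro rfl; simp at hi
  rw [ofBasis_basis]
  exact (le_ofBasis_iff b l hx).mp le_rfl i hi

/-! ### Steps -/

/-- `P` is a step of the filtration `F`. -/
def Step (F : Wt K V) (P : Submodule K V) : Prop := ∃ a : ℝ, F.sub a = P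

/-- The basis `b` is compatible with the subspace `P`. -/
def Compat {ι : Type*} (b : Basis ι K V) (P : Submodule K V) : Prop :=
  ∀ x ∈ P, ∀ i, b.repr x i ≠ 0 → b i ∈ P

theorem Step.compat {F : Wt K V} {P : Submodule K V} (h : F.Step P) {ι : Type*}
    {b : Basis ι K V} (hb : F.Adapted b) : Compat b P := by
  obtain ⟨a, rfl⟩ := h
  intro x hx i hi
  have hx0 : x ≠ 0 := by rintro rfl; simp at hi
  exact fun _ => (hx hx0).trans (hb x i hi)

theorem step_sub (F : Wt K V) (a : ℝ) : F.Step (F.sub a) := ⟨a, rfl⟩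

section FD

variable [FiniteDimensional K V] (F G : Wt K V)

theorem step_bot : F.Step (⊥ : Submodule K V) := by
  obtain ⟨B, hB⟩ := F.finite_values.bddAbove
  refine ⟨B + 1, ?_⟩
  rw [eq_bot_iff]
  intro x hx
  rw [Submodule.mem_bot]
  by_contra h0
  have h1 := hx h0
  have h2 := hB ⟨x, h0, rfl⟩
  linarith

theorem step_top : F.Step (⊤ : Submodule K V) := by
  obtain ⟨B, hB⟩ := F.finite_values.bddBelow
  refine ⟨B, ?_⟩
  rw [eq_top_iff]
  intro x _ h0
  exact hB ⟨x, h0, rfl⟩

theorem step_subGt (a : ℝ) : F.Step (F.subGt a) := by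
  by_cases hs : ∃ x ∈ {x : V | x ≠ 0 ∧ a < F.w x}, x ≠ 0
  · obtain ⟨x, hx, hx0, hmin⟩ := F.exists_min _ hs
    refine ⟨F.w x, ?_⟩
    ext y
    constructor
    · intro hy h0
      exact hx.2.trans_le (hy h0)
    · intro hy h0
      exact hmin y ⟨h0, hy h0⟩ h0
  · have hbot : F.subGt a = ⊥ := by
      rw [eq_bot_iff]
      intro x hx
      rw [Submodule.mem_bot]
      by_contra h0
      exact hs ⟨x, ⟨h0, hx h0⟩, h0⟩
    rw [hbot]
    exact F.step_bot

omit [FiniteDimensional K V] in
/-- Two steps of one filtration are comparable. -/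
theorem Step.le_total {F : Wt K V} {P Q : Submodule K V} (hP : F.Step P) (hQ : F.Step Q) :
    P ≤ Q ∨ Q ≤ P := by
  obtain ⟨a, rfl⟩ := hP
  obtain ⟨b, rfl⟩ := hQ
  rcases _root_.le_total a b with h | h
  · exact Or.inr (F.sub_antitone h)
  · exact Or.inl (F.sub_antitone h)

/-- A compatible subspace whose members of the basis have larger weight than the other members is
a step. -/
theorem step_of_lt {ι : Type*} [Finite ι] {b : Basis ι K V} (hb : F.Adapted b)
    {P : Submodule K V} (hP : Compat b P)
    (h : ∀ i j, b i ∈ P → b j ∉ P → F.w (b j) < F.w (b i)) : F.Step P := by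
  classical
  have := Fintype.ofFinite ι
  by_cases hne : (Finset.univ.filter (fun i => b i ∈ P)).Nonempty
  · obtain ⟨i0, hi0, hmin⟩ := Finset.exists_min_image _ (fun i => F.w (b i)) hne
    rw [Finset.mem_filter] at hi0
    refine ⟨F.w (b i0), ?_⟩
    ext x
    rw [hb.mem_sub_iff]
    constructor
    · intro hx
      rw [← b.sum_repr x]
      refine Submodule.sum_mem _ (fun i _ => ?_)
      by_cases hi : b.repr x i = 0
      · rw [hi, zero_smul]; exact Submodule.zero_mem _
      · refine Submodule.smul_mem _ _ ?_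
        by_contra hcon
        exact absurd (hx i hi) (not_le.mpr (h i0 i hi0.2 hcon))
    · intro hx i hi
      exact hmin i (Finset.mem_filter.mpr ⟨Finset.mem_univ _, hP x hx i hi⟩)
  · have hbot : P = ⊥ := by
      rw [eq_bot_iff]
      intro x hx
      rw [Submodule.mem_bot]
      by_contra h0
      obtain ⟨i, hi, -⟩ := hb.exists_eq h0
      exact hne ⟨i, Finset.mem_filter.mpr ⟨Finset.mem_univ _, hP x hx i hi⟩⟩
    rw [hbot]
    exact F.step_bot

/-! ### The joint filtration -/

/-- A chosen common adapted basis. -/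
noncomputable def cob : Basis (Fin (finrank K V)) K V := (F.exists_adapted₂ G).choose

theorem adapted_cob_left : F.Adapted (F.cob G) := (F.exists_adapted₂ G).choose_spec.1
theorem adapted_cob_right : G.Adapted (F.cob G) := (F.exists_adapted₂ G).choose_spec.2

/-- The joint filtration `t F + G`: on a common adapted basis the weights are `t λ_i + μ_i`. -/
noncomputable def joint (t : ℝ) : Wt K V :=
  ofBasis (F.cob G) (fun i => t * F.w (F.cob G i) + G.w (F.cob G i))

theorem joint_ge {t : ℝ} (ht : 0 ≤ t) {x : V} (hx : x ≠ 0) :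
    t * F.w x + G.w x ≤ (F.joint G t).w x := by
  rw [joint, le_ofBasis_iff _ _ hx]
  intro i hi
  exact add_le_add (mul_le_mul_of_nonneg_left (F.adapted_cob_left G x i hi) ht)
    (F.adapted_cob_right G x i hi)

theorem joint_le_of {t : ℝ} (H : Wt K V) (hH : ∀ x, x ≠ 0 → t * F.w x + G.w x ≤ H.w x) {x : V}
    (hx : x ≠ 0) : (F.joint G t).w x ≤ H.w x := by
  refine le_w_of_forall_basis (F.cob G) hx (fun i hi => ?_)
  refine le_trans ?_ (hH _ ((F.cob G).ne_zero i))
  exact (le_ofBasis_iff _ _ hx).mp le_rfl i hi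

variable {F G}

/-- On every common adapted basis the joint filtration is adapted, with the expected weights. -/
theorem joint_basis {t : ℝ} (ht : 0 ≤ t) {ι : Type*} {b : Basis ι K V} (hF : F.Adapted b)
    (hG : G.Adapted b) (i : ι) : (F.joint G t).w (b i) = t * F.w (b i) + G.w (b i) := by
  apply le_antisymm
  · have h1 := joint_le_of F G (t := t) (ofBasis b (fun i => t * F.w (b i) + G.w (b i)))
      (fun x hx => (le_ofBasis_iff _ _ hx).mpr fun j hj =>
        add_le_add (mul_le_mul_of_nonneg_left (hF x j hj) ht) (hG x j hj)) (b.ne_zero i)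
    rwa [ofBasis_basis] at h1
  · exact joint_ge F G ht (b.ne_zero i)

theorem joint_adapted {t : ℝ} (ht : 0 ≤ t) {ι : Type*} {b : Basis ι K V} (hF : F.Adapted b)
    (hG : G.Adapted b) : (F.joint G t).Adapted b := by
  intro x i hi
  have hx : x ≠ 0 := by rintro rfl; simp at hi
  rw [joint_basis ht hF hG]
  have h1 := joint_le_of F G (t := t) (ofBasis b (fun i => t * F.w (b i) + G.w (b i)))
      (fun x hx => (le_ofBasis_iff _ _ hx).mpr fun j hj =>
        add_le_add (mul_le_mul_of_nonneg_left (hF x j hj) ht) (hG x j hj)) hx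
  exact h1.trans ((le_ofBasis_iff _ _ hx).mp le_rfl i hi)

theorem T_joint {t : ℝ} (ht : 0 ≤ t) : (F.joint G t).T = t * F.T + G.T := by
  obtain ⟨b, hF, hG⟩ := F.exists_adapted₂ G
  rw [← (joint_adapted ht hF hG).sum_eq, ← hF.sum_eq, ← hG.sum_eq, Finset.mul_sum,
    ← Finset.sum_add_distrib]
  exact Finset.sum_congr rfl (fun i _ => joint_basis ht hF hG i)

/-- Steps of `F` are steps of `t F + G` for all large `t`. -/
theorem exists_step_joint {P : Submodule K V} (hP : F.Step P) :
    ∃ t₀ : ℝ, 0 ≤ t₀ ∧ ∀ t, t₀ ≤ t → (F.joint G t).Step P := by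
  classical
  obtain ⟨b, hF, hG⟩ := F.exists_adapted₂ G
  have hc := hP.compat hF
  have hlt : ∀ i j, b i ∈ P → b j ∉ P → F.w (b j) < F.w (b i) := by
    obtain ⟨a, rfl⟩ := hP
    intro i j hi hj
    have h1 : a ≤ F.w (b i) := hi (b.ne_zero i)
    have h2 : F.w (b j) < a := by
      by_contra hcon
      exact hj (fun _ => not_lt.mp hcon)
    linarith
  -- bound over all pairs
  obtain ⟨t₀, ht₀⟩ : ∃ t₀ : ℝ, ∀ p ∈ (Finset.univ : Finset (_ × _)), p ∈ Finset.univ →
      (G.w (b p.2) - G.w (b p.1)) / (F.w (b p.1) - F.w (b p.2)) < t₀ := by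
    obtain ⟨B, hB⟩ := ((Finset.univ : Finset (Fin (finrank K V) × Fin (finrank K V))).image
      (fun p => (G.w (b p.2) - G.w (b p.1)) / (F.w (b p.1) - F.w (b p.2)))).bddAbove
    refine ⟨B + 1, fun p hp _ => ?_⟩
    have : (G.w (b p.2) - G.w (b p.1)) / (F.w (b p.1) - F.w (b p.2)) ≤ B :=
      hB (by simp)
    linarith
  refine ⟨max t₀ 0, le_max_right _ _, fun t ht => ?_⟩
  have ht0 : 0 ≤ t := (le_max_right _ _).trans ht
  refine step_of_lt _ (joint_adapted ht0 hF hG) hc (fun i j hi hj => ?_)
  rw [joint_basis ht0 hF hG, joint_basis ht0 hF hG]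
  have h1 := hlt i j hi hj
  have h2 := ht₀ (i, j) (Finset.mem_univ _) (Finset.mem_univ _)
  have h3 : (G.w (b j) - G.w (b i)) / (F.w (b i) - F.w (b j)) < t :=
    h2.trans_le ((le_max_left _ _).trans ht)
  rw [div_lt_iff₀ (by linarith)] at h3
  linarith

end FD

end Wt

end Vale.Agent.P271.Filt
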