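import Vale.Agent.P271.Filt.OfBasis

/-!
# P271 / Filt : leading data with one dimensional leaves (helper232)

`lead : V → Γ` (values at nonzero vectors only) with values in a linear order, non-archimedean and
with one dimensional leaves.  Then the set of leading data of `V` has exactly `finrank V` elements,
and the total weight of every filtration that is a monotone function of `lead` is the sum of its
values over this set; also for quotients by the steps of `lead`.
-/

namespace Vale.Agent.P271.Filt

open Module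

variable {K : Type*} {V : Type*} [Field K] [AddCommGroup V] [Module K V]
  {Γ : Type*} [LinearOrder Γ]

/-- leading data with one dimensional leaves -/
structure Leaf (K : Type*) {V : Type*} [Field K] [AddCommGroup V] [Module K V]
    {Γ : Type*} [LinearOrder Γ] (lead : V → Γ) : Prop where
  smul : ∀ (c : K) (x : V), c ≠ 0 → x ≠ 0 → lead (c • x) = lead x
  add : ∀ x y : V, x ≠ 0 → y ≠ 0 → x + y ≠ 0 → min (lead x) (lead y) ≤ lead (x + y)
  leaf : ∀ x y : V, x ≠ 0 → y ≠ 0 → lead x = lead y →
    ∃ c : K, x - c • y = 0 ∨ lead x < lead (x - c • y)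

namespace Leaf

variable {lead : V → Γ}

/-- the step `{lead ≥ γ}` -/
def step (H : Leaf K lead) (γ : Γ) : Submodule K V where
  carrier := {x | x ≠ 0 → γ ≤ lead x}
  zero_mem' := fun h => absurd rfl h
  add_mem' := by
    intro x y hx hy hxy
    by_cases h1 : x = 0
    · subst h1
      rw [zero_add] at hxy ⊢
      exact hy hxy
    by_cases h2 : y = 0
    · subst h2
      rw [add_zero] at hxy ⊢
      exact hx hxy
    exact le_trans (le_min (hx h1) (hy h2)) (H.add x y h1 h2 hxy)
  smul_mem' := by
    intro c x hx hcx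
    have hc : c ≠ 0 := fun h => hcx (by rw [h, zero_smul])
    have hx0 : x ≠ 0 := fun h => hcx (by rw [h, smul_zero])
    rw [H.smul c x hc hx0]
    exact hx hx0

theorem mem_step (H : Leaf K lead) {γ : Γ} {x : V} : x ∈ H.step γ ↔ (x ≠ 0 → γ ≤ lead x) :=
  Iff.rfl

/-- strict steps -/
def stepGt (H : Leaf K lead) (γ : Γ) : Submodule K V where
  carrier := {x | x ≠ 0 → γ < lead x}
  zero_mem' := fun h => absurd rfl h
  add_mem' := by
    intro x y hx hy hxy
    by_cases h1 : x = 0
    · subst h1
      rw [zero_add] at hxy ⊢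
      exact hy hxy
    by_cases h2 : y = 0
    · subst h2
      rw [add_zero] at hxy ⊢
      exact hx hxy
    exact lt_of_lt_of_le (lt_min (hx h1) (hy h2)) (H.add x y h1 h2 hxy)
  smul_mem' := by
    intro c x hx hcx
    have hc : c ≠ 0 := fun h => hcx (by rw [h, zero_smul])
    have hx0 : x ≠ 0 := fun h => hcx (by rw [h, smul_zero])
    rw [H.smul c x hc hx0]
    exact hx hx0

/-- vectors with distinct leading data: a linear combination is governed by the least leading
datum that occurs. -/
theorem lead_sum (H : Leaf K lead) {ι : Type*} (s : Finset ι) (v : ι → V) (c : ι → K)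
    (hv : ∀ i ∈ s, v i ≠ 0) (hinj : Set.InjOn (fun i => lead (v i)) s)
    (i : ι) (hi : i ∈ s) (hc : c i ≠ 0) (hmin : ∀ j ∈ s, c j ≠ 0 → lead (v i) ≤ lead (v j)) :
    ∑ j ∈ s, c j • v j ≠ 0 ∧ lead (∑ j ∈ s, c j • v j) = lead (v i) := by
  classical
  have hrest : ∑ j ∈ s.erase i, c j • v j ∈ H.stepGt (lead (v i)) := by
    refine Submodule.sum_mem _ (fun j hj => ?_)
    rw [Finset.mem_erase] at hj
    by_cases hcj : c j = 0
    · rw [hcj, zero_smul]; exact Submodule.zero_mem _
    · refine Submodule.smul_mem _ _ (fun _ => ?_)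
      refine lt_of_le_of_ne (hmin j hj.2 hcj) (fun h => hj.1 ?_)
      exact (hinj hi hj.2 h).symm
  have hsum : ∑ j ∈ s, c j • v j = c i • v i + ∑ j ∈ s.erase i, c j • v j :=
    (Finset.add_sum_erase s (fun j => c j • v j) hi).symm
  have hci : c i • v i ≠ 0 := smul_ne_zero hc (hv i hi)
  have hl : lead (c i • v i) = lead (v i) := H.smul _ _ hc (hv i hi)
  rw [hsum]
  set r := ∑ j ∈ s.erase i, c j • v j with hr
  by_cases hr0 : r = 0
  · rw [hr0, add_zero]; exact ⟨hci, hl⟩
  have hlt : lead (v i) < lead r := hrest hr0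
  have hne : c i • v i + r ≠ 0 := by
    intro h0
    have h1 : c i • v i = (-1 : K) • r := by
      rw [neg_one_smul]; exact eq_neg_of_add_eq_zero_left h0
    have h2 : lead (c i • v i) = lead r := by
      rw [h1]; exact H.smul _ _ (by simp) hr0
    rw [hl] at h2
    exact absurd h2 hlt.ne
  refine ⟨hne, le_antisymm ?_ ?_⟩
  · by_contra hcon
    push Not at hcon
    have hm : (-1 : K) • r ≠ 0 := smul_ne_zero (by simp) hr0
    have h3 := H.add (c i • v i + r) ((-1 : K) • r) hne hm (by
      rw [neg_one_smul, add_neg_cancel_right]; exact hci)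
    rw [neg_one_smul, add_neg_cancel_right, ← neg_one_smul K r, H.smul _ _ (by simp) hr0, hl] at h3
    exact absurd h3 (not_le.2 (lt_min hcon hlt))
  · have h3 := H.add (c i • v i) r hci hr0 hne
    rwa [hl, min_eq_left hlt.le] at h3

theorem linearIndependent (H : Leaf K lead) {ι : Type*} (v : ι → V) (hv : ∀ i, v i ≠ 0)
    (hinj : Function.Injective (fun i => lead (v i))) : LinearIndependent K v := by
  classical
  rw [linearIndependent_iff']
  intro s g hg i hi
  by_contra hne
  obtain ⟨j, hj, hmin⟩ := Finset.exists_min_image (s.filter (fun j => g j ≠ 0))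
    (fun j => lead (v j)) ⟨i, Finset.mem_filter.2 ⟨hi, hne⟩⟩
  rw [Finset.mem_filter] at hj
  exact (H.lead_sum s v g (fun j _ => hv j) (hinj.injOn) j hj.1 hj.2
    (fun k hk hk' => hmin k (Finset.mem_filter.2 ⟨hk, hk'⟩))).1 hg

variable [FiniteDimensional K V]

/-- the set of leading data of nonzero vectors is finite -/
theorem finite_image (H : Leaf K lead) : (lead '' {x : V | x ≠ 0}).Finite := by
  classical
  by_contra hinf
  obtain ⟨t, ht, hcard⟩ := Set.Infinite.exists_subset_card_eq (Set.not_finite.1 hinf |> fun h => h)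
    (finrank K V + 1)
  have hch : ∀ γ : t, ∃ x : V, x ≠ 0 ∧ lead x = γ := fun γ => ht γ.2
  choose e he0 he using hch
  have hli : LinearIndependent K e := H.linearIndependent e he0 (by
    intro a b hab
    simp only [he] at hab
    exact Subtype.ext hab)
  have := hli.fintype_card_le_finrank
  rw [Fintype.card_coe, hcard] at this
  omega

/-- the finite set of leading data -/
noncomputable def img (H : Leaf K lead) : Finset Γ := H.finite_image.toFinset

theorem mem_img (H : Leaf K lead) {γ : Γ} : γ ∈ H.img ↔ ∃ x : V, x ≠ 0 ∧ lead x = γ := by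
  rw [img, Set.Finite.mem_toFinset]; rfl

theorem lead_mem_img (H : Leaf K lead) {x : V} (hx : x ≠ 0) : lead x ∈ H.img :=
  H.mem_img.2 ⟨x, hx, rfl⟩

/-- chosen vectors with prescribed leading data -/
noncomputable def vec (H : Leaf K lead) (γ : H.img) : V := (H.mem_img.1 γ.2).choose

theorem vec_ne_zero (H : Leaf K lead) (γ : H.img) : H.vec γ ≠ 0 :=
  (H.mem_img.1 γ.2).choose_spec.1

theorem lead_vec (H : Leaf K lead) (γ : H.img) : lead (H.vec γ) = γ :=
  (H.mem_img.1 γ.2).choose_spec.2

theorem vec_li (H : Leaf K lead) : LinearIndependent K H.vec :=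
  H.linearIndependent _ H.vec_ne_zero (fun a b hab => by
    simp only [H.lead_vec] at hab
    exact Subtype.ext hab)

theorem vec_span (H : Leaf K lead) : ⊤ ≤ Submodule.span K (Set.range H.vec) := by
  classical
  by_contra hcon
  obtain ⟨x0, -, hx0⟩ := SetLike.not_le_iff_exists.1 hcon
  -- a vector outside the span with the largest leading datum
  have hne : ((H.img).filter (fun γ => ∃ x : V, x ∉ Submodule.span K (Set.range H.vec) ∧
      lead x = γ)).Nonempty := by
    refine ⟨lead x0, Finset.mem_filter.2 ⟨H.lead_mem_img ?_, x0, hx0, rfl⟩⟩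
    rintro rfl
    exact hx0 (Submodule.zero_mem _)
  obtain ⟨γ, hγ, hmax⟩ := Finset.exists_max_image _ id hne
  obtain ⟨hγi, x, hx, rfl⟩ := Finset.mem_filter.1 hγ
  have hx0' : x ≠ 0 := by rintro rfl; exact hx (Submodule.zero_mem _)
  obtain ⟨c, hc⟩ := H.leaf x (H.vec ⟨lead x, hγi⟩) hx0' (H.vec_ne_zero _)
    (H.lead_vec ⟨lead x, hγi⟩).symm
  have hmem : c • H.vec ⟨lead x, hγi⟩ ∈ Submodule.span K (Set.range H.vec) :=
    Submodule.smul_mem _ _ (Submodule.subset_span ⟨_, rfl⟩)
  have hnot : x - c • H.vec ⟨lead x, hγi⟩ ∉ Submodule.span K (Set.range H.vec) := by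
    intro h
    apply hx
    have := Submodule.add_mem _ h hmem
    rwa [sub_add_cancel] at this
  rcases hc with h0 | hlt
  · rw [h0] at hnot
    exact hnot (Submodule.zero_mem _)
  · have hne' : x - c • H.vec ⟨lead x, hγi⟩ ≠ 0 := by
      intro h0; rw [h0] at hnot; exact hnot (Submodule.zero_mem _)
    have := hmax _ (Finset.mem_filter.2 ⟨H.lead_mem_img hne', _, hnot, rfl⟩)
    exact absurd hlt (not_lt.2 this)

/-- the basis of vectors with prescribed leading data -/
noncomputable def basis (H : Leaf K lead) : Basis H.img K V := Basis.mk H.vec_li H.vec_span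

theorem lead_basis (H : Leaf K lead) (γ : H.img) : lead (H.basis γ) = γ := by
  rw [basis, Basis.mk_apply]; exact H.lead_vec γ

/-- **The number of leading data is the dimension.** -/
theorem card_img (H : Leaf K lead) : H.img.card = finrank K V := by
  rw [finrank_eq_card_basis H.basis, Fintype.card_coe]

/-- The leading datum of `x` is the least one that occurs in the expansion of `x`. -/
theorem lead_le (H : Leaf K lead) {x : V} {γ : H.img} (hγ : H.basis.repr x γ ≠ 0) :
    lead x ≤ γ := by
  classical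
  obtain ⟨μ, hμ, hmin⟩ := Finset.exists_min_image
    ((Finset.univ : Finset H.img).filter (fun j => H.basis.repr x j ≠ 0))
    (fun j => (j : Γ)) ⟨γ, Finset.mem_filter.2 ⟨Finset.mem_univ _, hγ⟩⟩
  have h := (H.lead_sum Finset.univ H.basis (H.basis.repr x) (fun j _ => H.basis.ne_zero j)
    (fun a _ b _ hab => Subtype.ext (by simpa only [H.lead_basis] using hab)) μ
    (Finset.mem_univ _) (Finset.mem_filter.1 hμ).2
    (fun j hj hj' => by
      rw [H.lead_basis, H.lead_basis]
      exact hmin j (Finset.mem_filter.2 ⟨Finset.mem_univ _, hj'⟩))).2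
  rw [H.basis.sum_repr, H.lead_basis] at h
  rw [h]
  exact hmin γ (Finset.mem_filter.2 ⟨Finset.mem_univ _, hγ⟩)

/-- A filtration that is a monotone function of the leading datum is adapted to the basis. -/
theorem adapted (H : Leaf K lead) {F : Wt K V} {g : Γ → ℝ}
    (hg : ∀ γ ∈ H.img, ∀ γ' ∈ H.img, γ ≤ γ' → g γ ≤ g γ')
    (hF : ∀ x, x ≠ 0 → F.w x = g (lead x)) : F.Adapted H.basis := by
  intro x γ hγ
  have hx : x ≠ 0 := by rintro rfl; simp at hγ
  rw [hF x hx, hF _ (H.basis.ne_zero γ), H.lead_basis]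
  exact hg _ (H.lead_mem_img hx) _ γ.2 (H.lead_le hγ)

/-- **Total weight of a filtration that is a monotone function of the leading datum.** -/
theorem T_eq (H : Leaf K lead) {F : Wt K V} {g : Γ → ℝ}
    (hg : ∀ γ ∈ H.img, ∀ γ' ∈ H.img, γ ≤ γ' → g γ ≤ g γ')
    (hF : ∀ x, x ≠ 0 → F.w x = g (lead x)) : F.T = ∑ γ ∈ H.img, g γ := by
  rw [← (H.adapted hg hF).sum_eq, ← Finset.sum_coe_sort H.img g]
  refine Finset.sum_congr rfl (fun γ _ => ?_)
  rw [hF _ (H.basis.ne_zero γ), H.lead_basis]

/-- membership in a step through coordinates -/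
theorem mem_step_iff (H : Leaf K lead) {γ0 : Γ} {x : V} :
    x ∈ H.step γ0 ↔ ∀ γ : H.img, H.basis.repr x γ ≠ 0 → γ0 ≤ γ := by
  classical
  constructor
  · intro hx γ hγ
    have hx0 : x ≠ 0 := by rintro rfl; simp at hγ
    exact (hx hx0).trans (H.lead_le hγ)
  · intro h
    rw [← H.basis.sum_repr x]
    refine Submodule.sum_mem _ (fun γ _ => ?_)
    by_cases hγ : H.basis.repr x γ = 0
    · rw [hγ, zero_smul]; exact Submodule.zero_mem _
    · refine Submodule.smul_mem _ _ (fun _ => ?_)
      rw [H.lead_basis]; exact h γ hγ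

/-- dimension of the steps -/
theorem finrank_step (H : Leaf K lead) (γ0 : Γ) :
    finrank K (H.step γ0) = (H.img.filter (fun γ => γ0 ≤ γ)).card := by
  classical
  have hspan : H.step γ0 = Submodule.span K
      (Set.range (fun j : {j : H.img // γ0 ≤ (j : Γ)} => H.basis j)) := by
    apply le_antisymm
    · intro x hx
      rw [mem_step_iff] at hx
      rw [← H.basis.sum_repr x]
      refine Submodule.sum_mem _ (fun γ _ => ?_)
      by_cases hγ : H.basis.repr x γ = 0
      · rw [hγ, zero_smul]; exact Submodule.zero_mem _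
      · exact Submodule.smul_mem _ _ (Submodule.subset_span ⟨⟨γ, hx γ hγ⟩, rfl⟩)
    · rw [Submodule.span_le]
      rintro _ ⟨j, rfl⟩
      intro _
      rw [H.lead_basis]; exact j.2
  have hli : LinearIndependent K (fun j : {j : H.img // γ0 ≤ (j : Γ)} => H.basis j) :=
    H.basis.linearIndependent.comp _ Subtype.val_injective
  rw [hspan, finrank_span_eq_card hli]
  rw [Fintype.card_subtype]
  refine Finset.card_bij (fun j _ => (j : Γ)) ?_ ?_ ?_
  · intro j hj
    exact Finset.mem_filter.2 ⟨j.2, (Finset.mem_filter.1 hj).2⟩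
  · intro a _ b _ hab
    exact Subtype.ext hab
  · intro γ hγ
    rw [Finset.mem_filter] at hγ
    exact ⟨⟨γ, hγ.1⟩, Finset.mem_filter.2 ⟨Finset.mem_univ _, hγ.2⟩, rfl⟩

end Leaf

end Vale.Agent.P271.Filt
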