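import Vale.Agent.P271.Filt.OfBasis

/-!
# P271 / Filt : limits of filtrations (helper232)

A sequence of filtrations of a finite dimensional inner product space whose weights lie in one
finite set has a subsequence with orthonormal adapted bases converging to an orthonormal basis.
-/

namespace Vale.Agent.P271.Filt

open Module Filter Topology

namespace Wt

section Ortho

/-- Every filtration has an adapted basis with decreasing weights. -/
theorem exists_adapted_antitone {K : Type*} {V : Type*} [Field K] [AddCommGroup V] [Module K V]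
    [FiniteDimensional K V] (F : Wt K V) :
    ∃ b : Basis (Fin (finrank K V)) K V, F.Adapted b ∧ Antitone (fun i => F.w (b i)) := by
  set b0 := F.adb
  let f : Fin (finrank K V) → ℝ := fun i => -F.w (b0 i)
  let σ := Tuple.sort f
  have hσ : Monotone (f ∘ σ) := Tuple.monotone_sort f
  refine ⟨b0.reindex σ.symm, F.adapted_adb.reindex σ.symm, ?_⟩
  intro i j hij
  have h := hσ hij
  simp only [Function.comp_apply, f] at h
  simp only [Basis.reindex_apply, Equiv.symm_symm]
  linarith

variable {𝕜 : Type*} [RCLike 𝕜] {V : Type*} [NormedAddCommGroup V] [InnerProductSpace 𝕜 V]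
  [FiniteDimensional 𝕜 V]

/-- Every filtration of a finite dimensional inner product space has an orthonormal adapted basis
with decreasing weights. -/
theorem exists_orthonormal_adapted (F : Wt 𝕜 V) :
    ∃ B : OrthonormalBasis (Fin (finrank 𝕜 V)) 𝕜 V, F.Adapted B.toBasis ∧
      Antitone (fun i => F.w (B i)) := by
  classical
  obtain ⟨b, hb, hanti⟩ := F.exists_adapted_antitone
  have hcard : finrank 𝕜 V = Fintype.card (Fin (finrank 𝕜 V)) := by simp
  set B := InnerProductSpace.gramSchmidtOrthonormalBasis (𝕜 := 𝕜) hcard b with hB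
  have hne : ∀ i, InnerProductSpace.gramSchmidtNormed 𝕜 b i ≠ 0 := by
    intro i h0
    have h := InnerProductSpace.gramSchmidtNormed_unit_length (𝕜 := 𝕜) i b.linearIndependent
    rw [h0] at h
    simp at h
  have hBi : ∀ i, B i = InnerProductSpace.gramSchmidtNormed 𝕜 b i := by
    intro i
    rw [hB]
    exact InnerProductSpace.gramSchmidtOrthonormalBasis_apply hcard (hne i)
  have hmem : ∀ i, B i ∈ F.sub (F.w (b i)) := by
    intro i
    rw [hBi i]
    unfold InnerProductSpace.gramSchmidtNormed
    refine Submodule.smul_mem _ _ ?_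
    have h1 := InnerProductSpace.gramSchmidt_mem_span 𝕜 b (le_refl i)
    refine (Submodule.span_le.2 ?_) h1
    rintro _ ⟨j, hj, rfl⟩
    exact fun _ => hanti hj
  have hB0 : ∀ i, B i ≠ 0 := fun i => by
    have := B.orthonormal.ne_zero i
    exact this
  have hle : ∀ i ∈ Finset.univ, F.w (b i) ≤ F.w (B i) := fun i _ => hmem i (hB0 i)
  have hcoe : ∀ i, B.toBasis i = B i := fun i => by rw [OrthonormalBasis.coe_toBasis]
  have hT1 : ∑ i, F.w (B i) ≤ F.T := by
    have := sum_le_T (F := F) B.toBasis
    simpa only [hcoe] using this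
  have hT2 : F.T ≤ ∑ i, F.w (B i) := by
    rw [← hb.sum_eq]; exact Finset.sum_le_sum hle
  have hadp : F.Adapted B.toBasis := by
    apply adapted_of_T_le
    simpa only [hcoe] using hT2
  refine ⟨B, hadp, ?_⟩
  have heq := (Finset.sum_eq_sum_iff_of_le hle).1 (le_antisymm (Finset.sum_le_sum hle)
    (by rw [hb.sum_eq]; exact hT1))
  intro i j hij
  simp only
  rw [← heq i (Finset.mem_univ i), ← heq j (Finset.mem_univ j)]
  exact hanti hij

end Ortho

section Limit

variable {𝕜 : Type*} [RCLike 𝕜] {V : Type*} [NormedAddCommGroup V] [InnerProductSpace 𝕜 V]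
  [FiniteDimensional 𝕜 V]

/-- Compactness: sequences of orthonormal bases have convergent subsequences. -/
theorem exists_subseq_orthonormal {N : ℕ} (hN : finrank 𝕜 V = N)
    (B : ℕ → OrthonormalBasis (Fin N) 𝕜 V) :
    ∃ (φ : ℕ → ℕ) (B' : OrthonormalBasis (Fin N) 𝕜 V), StrictMono φ ∧
      ∀ i, Tendsto (fun n => B (φ n) i) atTop (𝓝 (B' i)) := by
  classical
  have : ProperSpace V := FiniteDimensional.proper_rclike 𝕜 V
  have hcomp : IsCompact (Set.pi Set.univ (fun _ : Fin N => Metric.closedBall (0 : V) 1)) :=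
    isCompact_univ_pi (fun _ => isCompact_closedBall 0 1)
  obtain ⟨v, hv, φ, hφ, hlim⟩ := hcomp.tendsto_subseq (x := fun n => fun i => B n i) (by
    intro n i _
    rw [mem_closedBall_zero_iff, (B n).orthonormal.1 i])
  have hlim' : ∀ i, Tendsto (fun n => B (φ n) i) atTop (𝓝 (v i)) := by
    intro i
    exact (tendsto_pi_nhds.1 hlim) i
  have hort : Orthonormal 𝕜 v := by
    constructor
    · intro i
      have h1 : Tendsto (fun n => ‖B (φ n) i‖) atTop (𝓝 ‖v i‖) := (hlim' i).norm
      have h2 : (fun n => ‖B (φ n) i‖) = fun _ => (1 : ℝ) := by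
        funext n; exact (B (φ n)).orthonormal.1 i
      rw [h2] at h1
      exact (tendsto_nhds_unique h1 tendsto_const_nhds)
    · intro i j hij
      have h1 : Tendsto (fun n => inner 𝕜 (B (φ n) i) (B (φ n) j)) atTop
          (𝓝 (inner 𝕜 (v i) (v j))) := (hlim' i).inner (hlim' j)
      have h2 : (fun n => inner 𝕜 (B (φ n) i) (B (φ n) j)) = fun _ => (0 : 𝕜) := by
        funext n; exact (B (φ n)).orthonormal.2 hij
      rw [h2] at h1
      exact (tendsto_nhds_unique h1 tendsto_const_nhds)
  have hcard : finrank 𝕜 V = Fintype.card (Fin N) := by simp [hN]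
  have hspan : ⊤ ≤ Submodule.span 𝕜 (Set.range v) := by
    by_cases hN0 : N = 0
    · subst hN0
      have : Subsingleton V := finrank_zero_iff.1 hN
      intro x _
      rw [Subsingleton.elim x 0]; exact Submodule.zero_mem _
    · have : Nonempty (Fin N) := ⟨⟨0, Nat.pos_of_ne_zero hN0⟩⟩
      exact (hort.linearIndependent.span_eq_top_of_card_eq_finrank hcard.symm).ge
  refine ⟨φ, OrthonormalBasis.mk hort hspan, hφ, fun i => ?_⟩
  rw [OrthonormalBasis.coe_mk]
  exact hlim' i

/-- **Limits of filtrations.** A sequence of filtrations with weights in one finite set has a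
subsequence with orthonormal adapted bases `B n` converging to an orthonormal basis `B'`, with the
same (decreasing) weights `lam` for all members of the subsequence. -/
theorem exists_limit (F : ℕ → Wt 𝕜 V) (S : Finset ℝ) (hS : ∀ n x, x ≠ 0 → (F n).w x ∈ S) :
    ∃ (φ : ℕ → ℕ) (B : ℕ → OrthonormalBasis (Fin (finrank 𝕜 V)) 𝕜 V)
      (B' : OrthonormalBasis (Fin (finrank 𝕜 V)) 𝕜 V) (lam : Fin (finrank 𝕜 V) → ℝ),
      StrictMono φ ∧ Antitone lam ∧ (∀ n, (F (φ n)).Adapted (B n).toBasis) ∧
      (∀ n i, (F (φ n)).w (B n i) = lam i) ∧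
      (∀ i, Tendsto (fun n => B n i) atTop (𝓝 (B' i))) := by
  classical
  choose B0 hB0 hanti using fun n => (F n).exists_orthonormal_adapted
  -- the weights take finitely many values
  let L : ℕ → (Fin (finrank 𝕜 V) → S) := fun n i =>
    ⟨(F n).w (B0 n i), hS n _ (by
      have := (B0 n).orthonormal.ne_zero i
      exact this)⟩
  -- infinitely many `n` have the same weights
  obtain ⟨l, hl⟩ : ∃ l : Fin (finrank 𝕜 V) → S, (L ⁻¹' {l}).Infinite :=
    Finite.exists_infinite_fiber L |>.imp (fun l h => Set.infinite_coe_iff.1 h)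
  let ψ : ℕ → ℕ := Nat.nth (fun n => L n = l)
  have hψ : StrictMono ψ := Nat.nth_strictMono hl
  have hψl : ∀ n, L (ψ n) = l := fun n => Nat.nth_mem_of_infinite hl n
  obtain ⟨χ, B', hχ, hlim⟩ := exists_subseq_orthonormal (𝕜 := 𝕜) (V := V) rfl
    (fun n => B0 (ψ n))
  refine ⟨ψ ∘ χ, fun n => B0 (ψ (χ n)), B', fun i => (l i : ℝ), hψ.comp hχ, ?_, ?_, ?_, hlim⟩
  · intro i j hij
    have h := hanti (ψ 0) hij
    have h1 := hψl 0
    have e : ∀ k, ((l k : ℝ)) = (F (ψ 0)).w (B0 (ψ 0) k) := by
      intro k; rw [← h1]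
    simp only at h ⊢
    rw [e i, e j]; exact h
  · intro n
    exact hB0 (ψ (χ n))
  · intro n i
    have h1 := hψl (χ n)
    show (F (ψ (χ n))).w (B0 (ψ (χ n)) i) = l i
    rw [← h1]

/-- Steps common to all the filtrations of a convergent sequence are steps of the limit, with the
same index. -/
theorem limit_step {N : ℕ} (lam : Fin N → ℝ) (B : ℕ → OrthonormalBasis (Fin N) 𝕜 V)
    (B' : OrthonormalBasis (Fin N) 𝕜 V) (F : ℕ → Wt 𝕜 V)
    (hadp : ∀ n, (F n).Adapted (B n).toBasis) (hw : ∀ n i, (F n).w (B n i) = lam i)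
    (hlim : ∀ i, Tendsto (fun n => B n i) atTop (𝓝 (B' i))) (a : ℝ) (W : Submodule 𝕜 V)
    (hW : ∀ n, (F n).sub a = W) : (ofBasis B'.toBasis lam).sub a = W := by
  classical
  have hcl : IsClosed (W : Set V) := W.closed_of_finiteDimensional
  have hcard : ∀ (b : Basis (Fin N) 𝕜 V),
      finrank 𝕜 (Submodule.span 𝕜 (b '' {i | a ≤ lam i})) =
        Fintype.card {i // a ≤ lam i} := by
    intro b
    have h1 : b '' {i | a ≤ lam i} = Set.range (fun j : {j // a ≤ lam j} => b j) := by
      ext y; simp [Set.mem_image]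
    have h3 : LinearIndependent 𝕜 (fun j : {j // a ≤ lam j} => b j) :=
      b.linearIndependent.comp _ Subtype.val_injective
    rw [h1, finrank_span_eq_card h3]
  have hsub : ∀ n, (F n).sub a = Submodule.span 𝕜 ((B n).toBasis '' {i | a ≤ lam i}) := by
    intro n
    rw [(hadp n).sub_eq_span]
    congr 2
    ext i
    simp only [Set.mem_ofPred_eq, OrthonormalBasis.coe_toBasis, hw n i]
  have hsub' : (ofBasis B'.toBasis lam).sub a
      = Submodule.span 𝕜 (B'.toBasis '' {i | a ≤ lam i}) := by
    rw [(ofBasis_adapted _ _).sub_eq_span]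
    congr 2
    ext i
    simp only [Set.mem_ofPred_eq, ofBasis_basis]
  rw [hsub']
  apply Submodule.eq_of_le_of_finrank_eq
  · rw [Submodule.span_le]
    rintro _ ⟨i, hi, rfl⟩
    rw [OrthonormalBasis.coe_toBasis]
    refine hcl.mem_of_tendsto (hlim i) (Eventually.of_forall (fun n => ?_))
    have : B n i ∈ (F n).sub a := fun _ => by rw [hw n i]; exact hi
    rw [hW n] at this
    exact this
  · rw [hcard, ← hW 0, hsub 0, hcard]

/-- The total weight of the limit. -/
theorem limit_T {N : ℕ} (lam : Fin N → ℝ) (B : OrthonormalBasis (Fin N) 𝕜 V)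
    (B' : OrthonormalBasis (Fin N) 𝕜 V) (F : Wt 𝕜 V) (hadp : F.Adapted B.toBasis)
    (hw : ∀ i, F.w (B i) = lam i) : (ofBasis B'.toBasis lam).T = F.T := by
  rw [ofBasis_T, ← hadp.sum_eq]
  exact Finset.sum_congr rfl (fun i _ => by rw [OrthonormalBasis.coe_toBasis, hw i])

/-- The total weight of the limit on `V / W`, `W` a common step (same index). -/
theorem limit_TQ {N : ℕ} (lam : Fin N → ℝ) (B : OrthonormalBasis (Fin N) 𝕜 V)
    (B' : OrthonormalBasis (Fin N) 𝕜 V) (F : Wt 𝕜 V) (hadp : F.Adapted B.toBasis)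
    (hw : ∀ i, F.w (B i) = lam i) (a : ℝ) :
    (ofBasis B'.toBasis lam).TQ ((ofBasis B'.toBasis lam).sub a) = F.TQ (F.sub a) := by
  classical
  have hB' : ∀ i, (ofBasis B'.toBasis lam).w (B' i) = lam i := by
    intro i
    have h := ofBasis_basis B'.toBasis lam i
    rwa [OrthonormalBasis.coe_toBasis] at h
  rw [hadp.TQ_step a, (ofBasis_adapted B'.toBasis lam).TQ_step a]
  simp only [OrthonormalBasis.coe_toBasis, hB', hw]

end Limit

section General

variable {𝕜 : Type*} [RCLike 𝕜] {V : Type*} [AddCommGroup V] [Module 𝕜 V]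
  [FiniteDimensional 𝕜 V]

/-- **Limits of filtrations, version for an arbitrary finite dimensional space.**  The adapted
bases `b n` of the subsequence converge to the basis `b'` against every linear map to a normed
space; the weights `lam` are the same for all `n`, and decreasing; the common steps (with the same
index) are steps of the limit filtration `ofBasis b' lam`, and the total weights `T` and `TQ` are
unchanged. -/
theorem exists_limit_general (F : ℕ → Wt 𝕜 V) (S : Finset ℝ)
    (hS : ∀ n x, x ≠ 0 → (F n).w x ∈ S) :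
    ∃ (φ : ℕ → ℕ) (b : ℕ → Basis (Fin (finrank 𝕜 V)) 𝕜 V)
      (b' : Basis (Fin (finrank 𝕜 V)) 𝕜 V) (lam : Fin (finrank 𝕜 V) → ℝ),
      StrictMono φ ∧ Antitone lam ∧ (∀ n, (F (φ n)).Adapted (b n)) ∧
      (∀ n i, (F (φ n)).w (b n i) = lam i) ∧
      (∀ (f : V →ₗ[𝕜] 𝕜) (i), Tendsto (fun n => f (b n i)) atTop (𝓝 (f (b' i)))) ∧
      (∀ (E : Type) [NormedAddCommGroup E] [NormedSpace 𝕜 E] (f : V →ₗ[𝕜] E) (i),
        Tendsto (fun n => f (b n i)) atTop (𝓝 (f (b' i)))) ∧
      (∀ (a : ℝ) (W : Submodule 𝕜 V), (∀ n, (F (φ n)).sub a = W) →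
        (ofBasis b' lam).sub a = W) ∧
      (∀ n, (ofBasis b' lam).T = (F (φ n)).T) ∧
      (∀ (n : ℕ) (a : ℝ), (ofBasis b' lam).TQ ((ofBasis b' lam).sub a)
        = (F (φ n)).TQ ((F (φ n)).sub a)) := by
  classical
  set N := finrank 𝕜 V with hN
  let e : EuclideanSpace 𝕜 (Fin N) ≃ₗ[𝕜] V :=
    LinearEquiv.ofFinrankEq _ _ (by rw [finrank_euclideanSpace_fin])
  have hfr : finrank 𝕜 (EuclideanSpace 𝕜 (Fin N)) = N := finrank_euclideanSpace_fin
  obtain ⟨φ, B, B', lam, hφ, hanti, hadp, hw, hlim⟩ :=
    exists_limit (fun n => (F n).comapEquiv e) S (fun n x hx => by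
      rw [comapEquiv_w]; exact hS n _ ((LinearEquiv.map_ne_zero_iff e).2 hx))
  -- transport the index type
  let c : Fin (finrank 𝕜 (EuclideanSpace 𝕜 (Fin N))) ≃ Fin N := finCongr hfr
  let b : ℕ → Basis (Fin N) 𝕜 V := fun n => ((B n).toBasis.map e).reindex c
  let b' : Basis (Fin N) 𝕜 V := (B'.toBasis.map e).reindex c
  have hb : ∀ n i, b n i = e (B n (c.symm i)) := by
    intro n i
    simp only [b, Basis.reindex_apply, Basis.map_apply, OrthonormalBasis.coe_toBasis]
  have hb' : ∀ i, b' i = e (B' (c.symm i)) := by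
    intro i
    simp only [b', Basis.reindex_apply, Basis.map_apply, OrthonormalBasis.coe_toBasis]
  have hadp' : ∀ n, (F (φ n)).Adapted (b n) := by
    intro n
    apply Adapted.reindex
    intro x i hi
    have h1 := hadp n (e.symm x) i (by simpa [Basis.map_repr] using hi)
    rw [comapEquiv_w, comapEquiv_w, LinearEquiv.apply_symm_apply] at h1
    rw [Basis.map_apply]
    exact h1
  have hw' : ∀ n i, (F (φ n)).w (b n i) = lam (c.symm i) := by
    intro n i
    rw [hb]
    exact hw n _
  have hlim' : ∀ (E : Type) [NormedAddCommGroup E] [NormedSpace 𝕜 E] (f : V →ₗ[𝕜] E) (i),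
        Tendsto (fun n => f (b n i)) atTop (𝓝 (f (b' i))) := by
    intro E _ _ f i
    have hcont : Continuous (f.comp e.toLinearMap) := LinearMap.continuous_of_finiteDimensional _
    have h1 := (hcont.tendsto (B' (c.symm i))).comp (hlim (c.symm i))
    simp only [hb, hb']
    exact h1
  have hlimK : ∀ (f : V →ₗ[𝕜] 𝕜) (i), Tendsto (fun n => f (b n i)) atTop (𝓝 (f (b' i))) := by
    intro f i
    have hcont : Continuous (f.comp e.toLinearMap) := LinearMap.continuous_of_finiteDimensional _
    have h1 := (hcont.tendsto (B' (c.symm i))).comp (hlim (c.symm i))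
    simp only [hb, hb']
    exact h1
  have hcard : ∀ (b0 : Basis (Fin N) 𝕜 V) (a : ℝ),
      finrank 𝕜 (Submodule.span 𝕜 (b0 '' {i | a ≤ lam (c.symm i)})) =
        Fintype.card {i // a ≤ lam (c.symm i)} := by
    intro b0 a
    have h1 : b0 '' {i | a ≤ lam (c.symm i)}
        = Set.range (fun j : {j // a ≤ lam (c.symm j)} => b0 j) := by
      ext y; simp [Set.mem_image]
    have h3 : LinearIndependent 𝕜 (fun j : {j // a ≤ lam (c.symm j)} => b0 j) :=
      b0.linearIndependent.comp _ Subtype.val_injective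
    rw [h1, finrank_span_eq_card h3]
  refine ⟨φ, b, b', fun i => lam (c.symm i), hφ, ?_, hadp', hw', hlimK, hlim', ?_, ?_, ?_⟩
  · intro i j hij
    apply hanti
    show c.symm i ≤ c.symm j
    exact hij
  · intro a W hW
    have hsub : ∀ n, (F (φ n)).sub a = Submodule.span 𝕜 (b n '' {i | a ≤ lam (c.symm i)}) := by
      intro n
      rw [(hadp' n).sub_eq_span]
      congr 2
      ext i
      simp only [Set.mem_ofPred_eq, hw' n i]
    have hsub' : (ofBasis b' (fun i => lam (c.symm i))).sub a
        = Submodule.span 𝕜 (b' '' {i | a ≤ lam (c.symm i)}) := by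
      rw [(ofBasis_adapted _ _).sub_eq_span]
      congr 2
      ext i
      simp only [Set.mem_ofPred_eq, ofBasis_basis]
    rw [hsub']
    apply Submodule.eq_of_le_of_finrank_eq
    · rw [Submodule.span_le]
      rintro _ ⟨i, hi, rfl⟩
      -- `b' i` lies in `W`: test against the quotient map
      by_contra hnot
      obtain ⟨f, hf1, hf2⟩ := Submodule.exists_le_ker_of_notMem hnot
      have h1 := hlimK f i
      have h2 : (fun n => f (b n i)) = fun _ => (0 : 𝕜) := by
        funext n
        have : b n i ∈ (F (φ n)).sub a := fun _ => by rw [hw' n i]; exact hi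
        rw [hW n] at this
        exact LinearMap.mem_ker.1 (hf2 this)
      rw [h2] at h1
      exact hf1 (tendsto_nhds_unique h1 tendsto_const_nhds)
    · rw [hcard, ← hW 0, hsub 0, hcard]
  · intro n
    rw [ofBasis_T, ← (hadp' n).sum_eq]
    exact Finset.sum_congr rfl (fun i _ => (hw' n i).symm)
  · intro n a
    rw [(hadp' n).TQ_step a, (ofBasis_adapted b' _).TQ_step a]
    simp only [ofBasis_basis, hw']

end General

end Wt

end Vale.Agent.P271.Filt
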