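import Vale.Agent.P271.Filt.Quot

/-!
# P271 / Filt : complements on `ofBasis`, transport along linear equivalences (helper232)
-/

namespace Vale.Agent.P271.Filt

open Module

namespace Wt

variable {K : Type*} {V : Type*} [Field K] [AddCommGroup V] [Module K V]

theorem mem_ofBasis_sub {ι : Type*} {b : Basis ι K V} {lam : ι → ℝ} {a : ℝ} {x : V} :
    x ∈ (ofBasis b lam).sub a ↔ ∀ i, b.repr x i ≠ 0 → a ≤ lam i := by
  rw [(ofBasis_adapted b lam).mem_sub_iff]
  simp_rw [ofBasis_basis]

theorem Adapted.mem_subGt_iff {F : Wt K V} {ι : Type*} {b : Basis ι K V} (hb : F.Adapted b)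
    {a : ℝ} {x : V} : x ∈ F.subGt a ↔ ∀ i, b.repr x i ≠ 0 → a < F.w (b i) := by
  constructor
  · intro hx i hi
    have h0 : x ≠ 0 := by
      rintro rfl
      simp at hi
    exact (hx h0).trans_le (hb x i hi)
  · intro h h0
    obtain ⟨i, hi, heq⟩ := hb.exists_eq h0
    rw [heq]; exact h i hi

/-- A filtration is determined by an adapted basis and its weights. -/
theorem Adapted.w_eq_ofBasis {F : Wt K V} {ι : Type*} {b : Basis ι K V} (hb : F.Adapted b)
    {lam : ι → ℝ} (h : ∀ i, F.w (b i) = lam i) {x : V} (hx : x ≠ 0) :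
    F.w x = (ofBasis b lam).w x :=
  hb.eq_of_eq (ofBasis_adapted b lam) (fun i => by rw [ofBasis_basis, h i]) hx

/-- the total weight of `ofBasis`. -/
theorem ofBasis_T [FiniteDimensional K V] {ι : Type*} [Fintype ι] (b : Basis ι K V)
    (lam : ι → ℝ) : (ofBasis b lam).T = ∑ i, lam i := by
  rw [← (ofBasis_adapted b lam).sum_eq]
  simp_rw [ofBasis_basis]

/-- The total weight on `V / W` for a step `W = F.sub a`: the sum of the weights below `a`. -/
theorem Adapted.TQ_step [FiniteDimensional K V] {F : Wt K V} {ι : Type*} [Fintype ι]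
    {b : Basis ι K V} (hb : F.Adapted b) (a : ℝ) [DecidablePred fun i => F.w (b i) < a] :
    F.TQ (F.sub a) = ∑ i with F.w (b i) < a, F.w (b i) := by
  classical
  rw [TQ_eq_sum hb ((F.step_sub a).compat hb)]
  have hset : (Finset.univ.filter fun i => b i ∉ F.sub a)
      = Finset.univ.filter fun i => F.w (b i) < a := by
    ext i
    rw [Finset.mem_filter, Finset.mem_filter, F.mem_sub_of_ne (b.ne_zero i), not_le]
  rw [hset]

/-- Pull-back along a linear equivalence. -/
def comapEquiv {V' : Type*} [AddCommGroup V'] [Module K V'] (F : Wt K V') (e : V ≃ₗ[K] V') :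
    Wt K V where
  w x := F.w (e x)
  smul_le' c x hc hx := by
    rw [map_smul]; exact F.smul_le' c (e x) hc (by simpa using hx)
  add' x y hx hy hxy := by
    rw [map_add]
    exact F.add' (e x) (e y) (by simpa using hx) (by simpa using hy)
      (by rw [← map_add]; exact (LinearEquiv.map_ne_zero_iff e).2 hxy)

theorem comapEquiv_w {V' : Type*} [AddCommGroup V'] [Module K V'] (F : Wt K V')
    (e : V ≃ₗ[K] V') (x : V) : (F.comapEquiv e).w x = F.w (e x) := rfl

theorem comapEquiv_sub {V' : Type*} [AddCommGroup V'] [Module K V'] (F : Wt K V')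
    (e : V ≃ₗ[K] V') (a : ℝ) : (F.comapEquiv e).sub a = (F.sub a).comap e.toLinearMap := by
  ext x
  rw [Submodule.mem_comap]
  constructor
  · intro h h0
    exact h (by intro hx; rw [hx] at h0; simp at h0)
  · intro h h0
    exact h (by simpa using h0)

theorem Adapted.comapEquiv {V' : Type*} [AddCommGroup V'] [Module K V'] {F : Wt K V'}
    {ι : Type*} {b : Basis ι K V'} (hb : F.Adapted b) (e : V ≃ₗ[K] V') :
    (F.comapEquiv e).Adapted (b.map e.symm) := by
  intro x i hi
  rw [comapEquiv_w, comapEquiv_w, Basis.map_apply, LinearEquiv.apply_symm_apply]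
  apply hb
  rw [Basis.map_repr] at hi
  simpa using hi

end Wt

end Vale.Agent.P271.Filt
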